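import Vale.Agent.P327.Rig.Red

/-!
P327 rigidity: elementary identities, parameter coordinates and codes derived from the layers.
-/

namespace P327.Rig

open P327 Filter

lemma xr_self_right (X Y : Cantor) : xr (xr X Y) Y = X := by
  funext n; simp [xr]

lemma xr_assoc (X Y Z : Cantor) : xr (xr X Y) Z = xr X (xr Y Z) := by
  funext n; simp [xr]

lemma xr_comm (X Y : Cantor) : xr X Y = xr Y X := by
  funext n; simp [xr, Bool.xor_comm]

lemma bne_comm' (a b : Bool) : (a != b) = (b != a) := by cases a <;> cases b <;> rfl

lemma bne_left_comm' (a b c : Bool) : (a != (b != c)) = (b != (a != c)) := by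
  cases a <;> cases b <;> cases c <;> rfl

lemma bne_cancel (a b : Bool) : (a != (a != b)) = b := by cases a <;> cases b <;> rfl

/-- The `n`th shift. -/
def shiftN (A : Cantor) : ℕ → Cantor
  | 0 => A
  | n + 1 => shiftS (shiftN A n)

lemma shiftN_apply (A : Cantor) :
    ∀ (n m : ℕ), shiftN A n m = A (Nat.pair m.unpair.1 (m.unpair.2 + n)) := by
  intro n
  induction n with
  | zero => simp [shiftN]
  | succ n ih =>
    intro m
    simp only [shiftN, shiftS, ih, Nat.unpair_pair]
    congr 2
    omega

/-- The left part. -/
def lft (X : Cantor) : Cantor := fun n => X (2 * n)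

/-- The right part. -/
def rgt (X : Cantor) : Cantor := fun n => X (2 * n + 1)

@[simp] lemma lft_join (X Y : Cantor) : lft (join X Y) = X := by
  funext n; simp [lft, join]

@[simp] lemma rgt_join (X Y : Cantor) : rgt (join X Y) = Y := by
  funext n
  simp [rgt, join, show (2 * n + 1) / 2 = n by omega]

lemma join_lft_rgt (X : Cantor) : join (lft X) (rgt X) = X := by
  funext n
  rcases Nat.mod_two_eq_zero_or_one n with h | h
  · simp [lft, join, h, show 2 * (n / 2) = n by omega]
  · simp [rgt, join, h, show 2 * (n / 2) + 1 = n by omega]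

lemma continuous_lft : Continuous lft := continuous_pi fun n => continuous_apply (2 * n)

lemma continuous_rgt : Continuous rgt := continuous_pi fun n => continuous_apply (2 * n + 1)

lemma mem_Box_self (a : Cantor) (F : Finset ℕ) : a ∈ Box a F := fun _ _ => rfl

lemma exists_deg (d : SetDegree) : ∃ X, deg X = d := by
  induction d using Quotient.inductionOn with
  | h A => exact ⟨A.mem, rfl⟩

/-- The computability and topology facts used by the rigidity proof. -/
structure Layer : Prop where
  reduces : ReducesStatement
  subst : SubstStatement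
  joinCode : JoinStatement
  pullback : PullbackStatement
  xorCode : XorStatement
  degJoin : DegJoinStatement
  mask : MaskStatement
  iterate : IterateStatement
  elim : ElimStatement
  openBox : OpenBoxStatement
  openBox2 : OpenBox2Statement
  existsMem : ExistsMemStatement
  continuity : ContinuityStatement

namespace Layer

variable (L : Layer)
include L

lemma deg_pull (X : Cantor) {f : ℕ → ℕ} (hf : Computable f) :
    deg (fun n => X (f n)) ≤ deg X := by
  obtain ⟨e, he⟩ := L.pullback f hf
  exact (L.reduces _ _).mpr ⟨e, he X⟩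

lemma deg_shiftS (X : Cantor) : deg (shiftS X) ≤ deg X :=
  L.deg_pull X (f := fun n => Nat.pair n.unpair.1 (n.unpair.2 + 1))
    (Primrec₂.natPair.comp (Primrec.fst.comp Primrec.unpair)
      (Primrec.succ.comp (Primrec.snd.comp Primrec.unpair))).to_comp

lemma deg_lft (X : Cantor) : deg (lft X) ≤ deg X :=
  L.deg_pull X (f := fun n => 2 * n) (Primrec.nat_mul.comp (Primrec.const 2) Primrec.id).to_comp

lemma deg_rgt (X : Cantor) : deg (rgt X) ≤ deg X :=
  L.deg_pull X (f := fun n => 2 * n + 1)
    (Primrec.succ.comp (Primrec.nat_mul.comp (Primrec.const 2) Primrec.id)).to_comp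

lemma le_join_left (X Y : Cantor) : deg X ≤ deg (join X Y) :=
  ((L.degJoin X Y _).mp le_rfl).1

lemma le_join_right (X Y : Cantor) : deg Y ≤ deg (join X Y) :=
  ((L.degJoin X Y _).mp le_rfl).2

lemma deg_xr {X Y : Cantor} {d : SetDegree} (hX : deg X ≤ d) (hY : deg Y ≤ d) :
    deg (xr X Y) ≤ d := by
  obtain ⟨e, he⟩ := L.xorCode
  exact ((L.reduces _ _).mpr ⟨e, he X Y⟩).trans ((L.degJoin X Y d).mpr ⟨hX, hY⟩)

lemma continuous_join' {Z : Type*} [TopologicalSpace Z] {f g : Z → Cantor}
    (hf : Continuous f) (hg : Continuous g) : Continuous fun z => join (f z) (g z) :=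
  L.continuity.1.comp (hf.prodMk hg)

lemma continuous_xr' {Z : Type*} [TopologicalSpace Z] {f g : Z → Cantor}
    (hf : Continuous f) (hg : Continuous g) : Continuous fun z => xr (f z) (g z) :=
  L.continuity.2.1.comp (hf.prodMk hg)

lemma isOpen_box (a : Cantor) (F : Finset ℕ) : IsOpen (Box a F) := L.continuity.2.2.2.2 a F

/-- A program that reads one component of the parameters and keeps all of them. -/
lemma stepCode (c : OCode) (f : ℕ → ℕ) (hf : Computable f) :
    ∃ e, ∀ Z P U, Comp c (join Z (fun n => P (f n))) U → Comp e (join Z P) (join U P) := by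
  obtain ⟨el, hel⟩ := L.pullback (fun n => 2 * n)
    (Primrec.nat_mul.comp (Primrec.const 2) Primrec.id).to_comp
  obtain ⟨er, her⟩ := L.pullback (fun n => 2 * n + 1)
    (Primrec.succ.comp (Primrec.nat_mul.comp (Primrec.const 2) Primrec.id)).to_comp
  obtain ⟨ef, hef⟩ := L.pullback f hf
  obtain ⟨e1, he1⟩ := L.subst er ef
  obtain ⟨e2, he2⟩ := L.joinCode el e1
  obtain ⟨e3, he3⟩ := L.subst e2 c
  obtain ⟨e4, he4⟩ := L.joinCode e3 er
  refine ⟨e4, fun Z P U hU => he4 _ _ _ (he3 _ _ _ (he2 _ _ _ ?_ ?_) hU) ?_⟩
  · have := hel (join Z P)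
    rwa [show (fun n => join Z P (2 * n)) = Z from lft_join Z P] at this
  · refine he1 _ P _ ?_ (hef P)
    have := her (join Z P)
    rwa [show (fun n => join Z P (2 * n + 1)) = P from rgt_join Z P] at this
  · have := her (join Z P)
    rwa [show (fun n => join Z P (2 * n + 1)) = P from rgt_join Z P] at this

end Layer

variable (L : Layer)
include L

lemma measurable_join' {Z : Type*} [MeasurableSpace Z] {f g : Z → Cantor}
    (hf : Measurable f) (hg : Measurable g) : Measurable fun z => join (f z) (g z) :=
  L.continuity.1.measurable.comp (hf.prodMk hg)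

lemma tendsto_xr_right (v : Cantor) :
    Tendsto (fun X => xr X v) (residual Cantor) (residual Cantor) := by
  have hc : Continuous fun X => xr X v := L.continuous_xr' continuous_id continuous_const
  exact tendsto_residual_of_isOpenMap hc (IsOpenMap.of_sections fun X =>
    ⟨fun Y => xr Y v, hc.continuousAt, xr_self_right X v, fun Y => xr_self_right Y v⟩)

end P327.Rig
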