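import Vale.Agent.P327.Rig.Cover

/-!
The category layer of the rigidity proof.
-/

namespace P327.Rig

open P327 Filter Topology

lemma box_subset {a : Cantor} {F G : Finset ℕ} (h : F ⊆ G) : Box a G ⊆ Box a F :=
  fun _ hX i hi => hX i (h hi)

theorem openBox : OpenBoxStatement := by
  intro V hV X hX F
  obtain ⟨G, hG⟩ := exists_box V hV hX
  exact ⟨F ∪ G, Finset.subset_union_left, (box_subset Finset.subset_union_right).trans hG⟩

theorem openBox2 : OpenBox2Statement := by
  intro V hV p hp F
  obtain ⟨u, v, hu, hv, hpu, hpv, huv⟩ := isOpen_prod_iff.mp hV p.1 p.2 hp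
  obtain ⟨G₁, h₁⟩ := exists_box u hu hpu
  obtain ⟨G₂, h₂⟩ := exists_box v hv hpv
  refine ⟨F ∪ (G₁ ∪ G₂), Finset.subset_union_left, fun q hq => huv ⟨h₁ ?_, h₂ ?_⟩⟩
  · exact fun i hi => hq.1 i (Finset.mem_union_right _ (Finset.mem_union_left _ hi))
  · exact fun i hi => hq.2 i (Finset.mem_union_right _ (Finset.mem_union_right _ hi))

theorem cover {Z : Type} [TopologicalSpace Z] [MeasurableSpace Z] [BorelSpace Z] [BaireSpace Z] :
    CoverStatement Z := by
  intro ι _ E U hU hne hE hcov
  by_contra hcon
  push Not at hcon
  have hbad : ∀ i, ∀ᶠ x in residual Z, x ∈ U → x ∉ E i := by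
    intro i
    obtain ⟨O, hO, hEO⟩ := (hE i).baireMeasurableSet.residualEq_isOpen
    have hEO' := Filter.eventuallyEq_set.mp hEO
    by_cases hOU : (O ∩ U).Nonempty
    · exfalso
      have hfr := hcon i (O ∩ U) (hO.inter hU) hOU Set.inter_subset_right
      exact hfr (hEO'.mono fun x hx hxV => hxV.2 (hx.mpr hxV.1.1))
    · exact hEO'.mono fun x hx hxU hxE => hOU ⟨x, hx.mp hxE, hxU⟩
  obtain ⟨x, hxU, hx⟩ := (dense_of_mem_residual
    ((eventually_countable_forall.mpr hbad).and hcov)).inter_open_nonempty U hU hne
  obtain ⟨i, hi⟩ := hx.2 hxU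
  exact hx.1 i hxU hi

theorem existsMem : ExistsMemStatement := by
  intro V p hV hne hp
  exact (dense_of_mem_residual hp).inter_open_nonempty V hV hne

theorem measComp : MeasCompStatement := by
  intro c
  refine ⟨?_, measurable_out c⟩
  convert measurableSet_comp c (Ω := Cantor × Cantor) measurable_fst measurable_snd using 1
  ext p
  exact comp_iff

theorem countableDeg : CountableDegStatement := by
  intro d
  obtain ⟨Y, rfl⟩ := deg_surjective d
  refine (Set.countable_range fun c => out c Y).mono fun X hX => ?_
  obtain ⟨c, hc⟩ := (reduces Y X).mp (le_of_eq hX)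
  exact ⟨c, (unique c Y X hc).symm⟩

/-- Translation by a fixed set, as a homeomorphism. -/
def translate (v : Cantor) : Cantor ≃ₜ Cantor where
  toFun X := xr X v
  invFun X := xr X v
  left_inv X := by funext n; simp [xr]
  right_inv X := by funext n; simp [xr]
  continuous_toFun := continuous_pi fun n =>
    (continuous_of_discreteTopology (f := fun b : Bool => b ^^ v n)).comp (continuous_apply n)
  continuous_invFun := continuous_pi fun n =>
    (continuous_of_discreteTopology (f := fun b : Bool => b ^^ v n)).comp (continuous_apply n)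

/-- The indicator of a finite set. -/
def ind (T : Finset ℕ) : Cantor := fun n => decide (n ∈ T)

lemma eventually_ne_point (X : Cantor) : ∀ᶠ Y in residual Cantor, Y ≠ X := by
  refine residual_of_dense_open (s := {Y | Y ≠ X}) isClosed_singleton.isOpen_compl
    (dense_iff_inter_open.mpr fun V hV ⟨Z, hZ⟩ => ?_)
  obtain ⟨F, hF⟩ := exists_box V hV hZ
  let n := F.sup id + 1
  refine ⟨Function.update Z n (!(X n)), hF fun i hi => ?_, fun h => ?_⟩
  · refine Function.update_of_ne (fun h : i = n => ?_) _ _
    have := Finset.le_sup (f := id) hi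
    simp only [id, h, n] at this
    omega
  · have := congrFun h n
    simp at this

theorem nonInv : NonInvStatement := by
  intro h hh hfib a₀ F₀ F₁
  by_contra hcon
  push Not at hcon
  let F := F₀ ∪ F₁
  have hinv : ∀ T : Finset ℕ, Disjoint T F →
      ∀ᶠ X in residual Cantor, X ∈ Box a₀ F₀ → h (xr X (ind T)) = h X := by
    intro T hT
    exact hcon (ind T) T (fun n hn => by simp [ind, hn])
      (fun n hn => by simp [ind, Finset.disjoint_right.mp hT hn])
  have hbit : ∀ i, ∃ b, ∀ᶠ X in residual Cantor, X ∈ Box a₀ F → h X i = b := by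
    intro i
    obtain ⟨O, hO, hAO⟩ :=
      ((measurable_pi_iff.mp hh i) (measurableSet_singleton true)).baireMeasurableSet.residualEq_isOpen
    have hAO' := Filter.eventuallyEq_set.mp hAO
    by_cases hne : (O ∩ Box a₀ F).Nonempty
    · obtain ⟨c, hcO, hcF⟩ := hne
      obtain ⟨G, hFG, hGO⟩ := openBox O hO c hcO F
      refine ⟨true, ?_⟩
      have hT : ∀ T ∈ (G \ F).powerset, ∀ᶠ X in residual Cantor,
          X ∈ Box a₀ F₀ → h (xr X (ind T)) = h X := fun T hT =>
        hinv T (Finset.disjoint_left.mpr fun n hn =>
          (Finset.mem_sdiff.mp (Finset.mem_powerset.mp hT hn)).2)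
      have hsh : ∀ T ∈ (G \ F).powerset, ∀ᶠ X in residual Cantor,
          (xr X (ind T) ∈ (fun Y : Cantor => h Y i) ⁻¹' {true} ↔ xr X (ind T) ∈ O) := fun T _ =>
        (tendsto_residual_of_isOpenMap (translate (ind T)).continuous
          (translate (ind T)).isOpenMap).eventually hAO'
      filter_upwards [((G \ F).powerset).eventually_all.mpr hT,
        ((G \ F).powerset).eventually_all.mpr hsh] with X hX hXO hXB
      let T := (G \ F).filter fun n => (X n ^^ c n) = true
      have hTm : T ∈ (G \ F).powerset := Finset.mem_powerset.mpr (Finset.filter_subset _ _)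
      have hmem : xr X (ind T) ∈ O := hGO fun n hn => by
        by_cases hnF : n ∈ F
        · simp [xr, ind, T, hnF, hXB n hnF, hcF n hnF]
        · cases hx : X n <;> cases hc : c n <;> simp [xr, ind, T, hn, hnF, hx, hc]
      have hval := (hXO T hTm).mpr hmem
      have heq := hX T hTm (box_subset Finset.subset_union_left hXB)
      simp only [Set.mem_preimage, Set.mem_singleton_iff] at hval
      rw [← heq, hval]
    · refine ⟨false, hAO'.mono fun X hX hXB => ?_⟩
      cases hb : h X i with
      | false => rfl
      | true => exact absurd ⟨X, hX.mp hb, hXB⟩ hne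
  choose y hy using hbit
  have hnot : ∀ᶠ X in residual Cantor, ∀ Z ∈ h ⁻¹' {y}, X ≠ Z :=
    (eventually_countable_ball (hfib y)).mpr fun Z _ => eventually_ne_point Z
  obtain ⟨X, hXB, hX⟩ := existsMem (Box a₀ F) _ (isOpen_box a₀ F) ⟨a₀, fun _ _ => rfl⟩
    ((eventually_countable_forall.mpr hy).and hnot)
  exact hX.2 X (funext fun i => hX.1 i hXB) rfl

theorem continuity : ContinuityStatement := by
  refine ⟨continuous_pi fun n => ?_, continuous_pi fun n => ?_,
    continuous_pi fun n => continuous_apply _, continuous_pi fun n => continuous_apply _,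
    isOpen_box⟩
  · simp only [join]
    split
    · exact (continuous_apply _).comp continuous_fst
    · exact (continuous_apply _).comp continuous_snd
  · have h2 : Continuous fun b : Bool × Bool => b.1 ^^ b.2 := continuous_of_discreteTopology
    have h1 : Continuous fun p : Cantor × Cantor => (p.1 n, p.2 n) :=
      ((continuous_apply n).comp continuous_fst).prodMk ((continuous_apply n).comp continuous_snd)
    exact h2.comp h1

end P327.Rig
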