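import Vale.Agent.P327.Rig.Interfaces2

/-!
P327, rigidity for every automorphism: the category lemmas.
-/

namespace P327.Rig

open Filter TopologicalSpace Topology

/-- A measurable set agrees on a residual set with an open set. -/
lemma exists_open_ae {Z : Type} [TopologicalSpace Z] [MeasurableSpace Z] [BorelSpace Z]
    {E : Set Z} (hE : MeasurableSet E) :
    ∃ U : Set Z, IsOpen U ∧ ∀ᶠ x in residual Z, (x ∈ E ↔ x ∈ U) := by
  obtain ⟨U, hU, hEU⟩ := hE.baireMeasurableSet.residualEq_isOpen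
  exact ⟨U, hU, (Filter.eventuallyEq_set.mp hEU)⟩

theorem localBits : LocalBitsStatement := by
  intro F hF
  have hS : ∀ i, MeasurableSet {X | F X i = true} := fun i =>
    (measurable_pi_iff.mp hF i) (measurableSet_singleton true)
  choose U hU hUS using fun i => exists_open_ae (hS i)
  have hfr : ∀ i, ∀ᶠ X in residual Cantor, X ∉ frontier (U i) := fun i =>
    residual_of_dense_open isClosed_frontier.isOpen_compl
      (interior_eq_empty_iff_dense_compl.mp (interior_frontier (hU i).isClosed_compl |>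
        fun h => by rwa [frontier_compl] at h))
  refine ⟨{X | ∀ i, (X ∈ {X | F X i = true} ↔ X ∈ U i) ∧ X ∉ frontier (U i)},
    eventually_countable_forall.mpr fun i => (hUS i).and (hfr i), fun X hX i => ?_⟩
  obtain ⟨hi, hif⟩ := hX i
  cases hb : F X i with
  | true => exact ⟨U i, hU i, hi.mp hb, fun Y hY hYU => (hY i).1.mpr hYU⟩
  | false =>
    have hXU : X ∉ U i := fun h => by simpa [hb] using hi.mpr h
    refine ⟨(closure (U i))ᶜ, isClosed_closure.isOpen_compl, fun h => hif ?_, fun Y hY hYU => ?_⟩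
    · rw [(hU i).frontier_eq]
      exact ⟨h, hXU⟩
    · cases hYb : F Y i with
      | false => rfl
      | true => exact absurd (subset_closure ((hY i).1.mp hYb)) hYU

theorem boxAround : BoxAroundStatement := by
  intro E hE
  obtain ⟨U, hU, hEU⟩ := exists_open_ae hE
  filter_upwards [hEU] with p hp hpE
  obtain ⟨u, v, hu, hv, hpu, hpv, huv⟩ := isOpen_prod_iff.mp hU p.1 p.2 (hp.mp hpE)
  obtain ⟨F₁, w₁, hw₁, hs₁⟩ := isOpen_pi_iff.mp hu p.1 hpu
  obtain ⟨F₂, w₂, hw₂, hs₂⟩ := isOpen_pi_iff.mp hv p.2 hpv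
  refine ⟨F₁ ∪ F₂, ?_⟩
  filter_upwards [hEU] with q hq hqbox
  refine hq.mpr (huv ⟨hs₁ fun i hi => ?_, hs₂ fun i hi => ?_⟩)
  · rw [hqbox.1 i (Finset.mem_union_left _ hi)]
    exact (hw₁ i hi).2
  · rw [hqbox.2 i (Finset.mem_union_right _ hi)]
    exact (hw₂ i hi).2

theorem denseSomewhere : DenseSomewhereStatement := by
  intro D hD
  by_contra hcon
  push Not at hcon
  let S : Set (Set Cantor) := {b | b ∈ countableBasis Cantor ∧ IsMeagre (D ∩ b)}
  have hSc : S.Countable := (countable_countableBasis Cantor).mono fun b hb => hb.1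
  have hopen : IsOpen (⋃₀ S) :=
    isOpen_sUnion fun b hb => (isBasis_countableBasis Cantor).isOpen hb.1
  have hdense : Dense (⋃₀ S) := by
    refine dense_iff_inter_open.mpr fun W hW ⟨x, hx⟩ => ?_
    obtain ⟨G, u, hu, hsub⟩ := isOpen_pi_iff.mp hW x hx
    obtain ⟨V, hV, ⟨y, hy⟩, hVG, hmeag⟩ := hcon x G
    obtain ⟨b, hb, hyb, hbV⟩ := (isBasis_countableBasis Cantor).exists_subset_of_mem_open hy hV
    refine ⟨y, hsub fun i hi => ?_, b, ⟨hb, hmeag.mono (Set.inter_subset_inter_right D hbV)⟩, hyb⟩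
    rw [hVG hy i hi]
    exact (hu i hi).2
  have h1 : IsMeagre (⋃₀ S)ᶜ := by
    rw [IsMeagre, compl_compl]
    exact residual_of_dense_open hopen hdense
  have h2 : IsMeagre (⋃ b ∈ S, D ∩ b) := isMeagre_biUnion hSc fun b hb => hb.2
  refine hD ((IsMeagre.union h1 h2).mono fun x hx => ?_)
  by_cases hxS : x ∈ ⋃₀ S
  · obtain ⟨b, hb, hxb⟩ := hxS
    exact Or.inr (Set.mem_biUnion hb ⟨hx, hxb⟩)
  · exact Or.inl hxS

theorem section_ {X Y : Type} [TopologicalSpace X] [TopologicalSpace Y]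
    [SecondCountableTopology Y] : SectionStatement X Y := by
  intro p hp
  obtain ⟨S, hSo, hSd, hSc, hSp⟩ := mem_residual_iff.mp hp
  have hone : ∀ t ∈ S, ∀ᶠ x in residual X, ∀ᶠ y in residual Y, (x, y) ∈ t := by
    intro t ht
    have hev : ∀ b ∈ countableBasis Y, ∀ᶠ x in residual X, ∃ y ∈ b, (x, y) ∈ t := by
      intro b hb
      have hbo : IsOpen b := (isBasis_countableBasis Y).isOpen hb
      have heq : {x | ∃ y ∈ b, (x, y) ∈ t} = Prod.fst '' (t ∩ Set.univ ×ˢ b) := by
        ext x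
        constructor
        · rintro ⟨y, hy, hxy⟩
          exact ⟨(x, y), ⟨hxy, trivial, hy⟩, rfl⟩
        · rintro ⟨⟨x', y⟩, ⟨hxy, -, hy⟩, rfl⟩
          exact ⟨y, hy, hxy⟩
      refine residual_of_dense_open (s := {x | ∃ y ∈ b, (x, y) ∈ t}) ?_ ?_
      · rw [heq]
        exact isOpenMap_fst _ ((hSo t ht).inter (isOpen_univ.prod hbo))
      · refine dense_iff_inter_open.mpr fun W hW ⟨x, hx⟩ => ?_
        obtain ⟨y, hy⟩ := nonempty_of_mem_countableBasis hb
        obtain ⟨⟨x', y'⟩, hW', ht'⟩ :=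
          (hSd t ht).inter_open_nonempty (W ×ˢ b) (hW.prod hbo) ⟨(x, y), hx, hy⟩
        exact ⟨x', hW'.1, y', hW'.2, ht'⟩
    have hev' := (eventually_countable_ball (countable_countableBasis Y)).mpr hev
    filter_upwards [hev'] with x hx
    refine residual_of_dense_open (s := {y | (x, y) ∈ t})
      ((hSo t ht).preimage (Continuous.prodMk_right x)) ?_
    refine (isBasis_countableBasis Y).dense_iff.mpr fun b hb _ => ?_
    obtain ⟨y, hy, hxy⟩ := hx b hb
    exact ⟨y, hy, hxy⟩
  filter_upwards [(eventually_countable_ball hSc).mpr hone] with x hx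
  filter_upwards [(eventually_countable_ball hSc).mpr hx] with y hy
  exact hSp (Set.mem_sInter.mpr hy)

end P327.Rig
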