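import Vale.Agent.P327.Rig.Algebra

/-!
P327 rigidity: elementary topology of Cantor space.
-/

namespace P327.Rig

open P327 Filter Topology

theorem openBox : OpenBoxStatement := by
  intro V hV X hX F
  obtain ⟨G, u, hu, hsub⟩ := isOpen_pi_iff.mp hV X hX
  refine ⟨F ∪ G, Finset.subset_union_left, fun Y hY => hsub fun i hi => ?_⟩
  rw [hY i (Finset.mem_union_right _ hi)]
  exact (hu i hi).2

theorem openBox2 : OpenBox2Statement := by
  intro V hV p hp F
  obtain ⟨u, v, hu, hv, hpu, hpv, huv⟩ := isOpen_prod_iff.mp hV p.1 p.2 hp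
  obtain ⟨G₁, hG₁, h₁⟩ := openBox u hu p.1 hpu F
  obtain ⟨G₂, -, h₂⟩ := openBox v hv p.2 hpv F
  exact ⟨G₁ ∪ G₂, hG₁.trans Finset.subset_union_left, fun q hq =>
    huv ⟨h₁ fun i hi => hq.1 i (Finset.mem_union_left _ hi),
      h₂ fun i hi => hq.2 i (Finset.mem_union_right _ hi)⟩⟩

theorem existsMem : ExistsMemStatement := fun V p hV hne hp => by
  obtain ⟨x, hxV, hx⟩ := (dense_of_mem_residual hp).inter_open_nonempty V hV hne
  exact ⟨x, hxV, hx⟩

theorem continuity : ContinuityStatement := by
  refine ⟨continuous_pi fun n => ?_, continuous_pi fun n => ?_,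
    continuous_pi fun n => continuous_apply _, continuous_pi fun n => continuous_apply _,
    fun a F => ?_⟩
  · by_cases h : n % 2 = 0
    · simp only [join, h, ↓reduceIte]
      exact (continuous_apply _).comp continuous_fst
    · simp only [join, h, ↓reduceIte]
      exact (continuous_apply _).comp continuous_snd
  · have h2 : Continuous fun p : Cantor × Cantor => (p.1 n, p.2 n) :=
      ((continuous_apply n).comp continuous_fst).prodMk ((continuous_apply n).comp continuous_snd)
    exact (continuous_of_discreteTopology (f := fun p : Bool × Bool => p.1 ^^ p.2)).comp h2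
  · rw [show Box a F = ⋂ i ∈ F, (fun X : Cantor => X i) ⁻¹' {a i} by ext X; simp [Box]]
    exact isOpen_biInter_finset fun i _ => (isOpen_discrete _).preimage (continuous_apply i)

theorem layer : Layer :=
  ⟨reduces, subst, joinCode, pullback, xorCode, degJoin, mask, iterate, elim, openBox, openBox2,
    existsMem, continuity⟩

end P327.Rig
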