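import Vale.Agent.P327.Rig.Red

/-!
Step 0 of the rigidity proof: countably many Borel functions cover an automorphism on a comeager
set, by coding with an independent sequence. Also the category form of parameter elimination.
-/

namespace P327.Rig

open P327 Filter

/-- The cells of row `n`. -/
def rowOf (G : Cantor) (n : ℕ) : Cantor := fun j => G (Nat.pair n j)

/-- `G` with row `n` erased. -/
def offRow (G : Cantor) (n : ℕ) : Cantor := fun c => !decide (c.unpair.1 = n) && G c

/-- The rows of `G` selected by `B`. -/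
def selRows (B G : Cantor) : Cantor := fun c => B c.unpair.1 && G c

lemma not_mem_closure_residual {S : Set Cantor}
    (h : ∀ V : Set Cantor, IsOpen V → V.Nonempty → ∃ W, IsOpen W ∧ W.Nonempty ∧ W ⊆ V ∧ W ∩ S = ∅) :
    ∀ᶠ X in residual Cantor, X ∉ S := by
  have hd : Dense (closure S)ᶜ := by
    refine dense_iff_inter_open.mpr fun V hV hne => ?_
    obtain ⟨W, hW, ⟨x, hx⟩, hWV, hWS⟩ := h V hV hne
    refine ⟨x, hWV hx, fun hcl => ?_⟩
    obtain ⟨y, hyW, hyS⟩ := mem_closure_iff.mp hcl W hW hx
    exact Set.eq_empty_iff_forall_notMem.mp hWS y ⟨hyW, hyS⟩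
  have hmem := residual_of_dense_open isClosed_closure.isOpen_compl hd
  exact Filter.mem_of_superset hmem fun X hX hXS => hX (subset_closure hXS)

lemma exists_box (V : Set Cantor) (hV : IsOpen V) {X : Cantor} (hX : X ∈ V) :
    ∃ F : Finset ℕ, Box X F ⊆ V := by
  obtain ⟨F, u, hu, hsub⟩ := isOpen_pi_iff.mp hV X hX
  refine ⟨F, fun Y hY => hsub fun i hi => ?_⟩
  rw [hY i hi]
  exact (hu i hi).2

lemma isOpen_box (a : Cantor) (F : Finset ℕ) : IsOpen (Box a F) := by
  have h : Box a F = ⋂ i ∈ F, {Y | Y i = a i} := by ext Y; simp [Box]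
  rw [h]
  refine isOpen_biInter_finset fun i _ => ?_
  have hc : Continuous fun Y : Cantor => Y i := continuous_apply i
  exact hc.isOpen_preimage ({a i} : Set Bool) (isOpen_discrete _)

/-- A parameter from a nonmeager set is redundant. -/
theorem elim_residual {a B : Cantor} (h : ¬ deg B ≤ deg a) :
    ∀ᶠ P in residual Cantor, ¬ deg B ≤ deg (join a P) := by
  have hall : ∀ e : OCode, ∀ᶠ P in residual Cantor, ¬ Comp e (join a P) B := by
    intro e
    refine not_mem_closure_residual (S := {P | Comp e (join a P) B}) fun V hV hne => ?_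
    by_contra hcon
    refine h ?_
    obtain ⟨c, hc⟩ := hne
    obtain ⟨F, hF⟩ := exists_box V hV hc
    refine elim e a B c F fun W hW hWne hWsub => ?_
    by_contra hno
    push Not at hno
    exact hcon ⟨W, hW, hWne, hWsub.trans hF,
      Set.eq_empty_iff_forall_notMem.mpr fun P hP => hno P hP.1 hP.2⟩
  filter_upwards [eventually_countable_forall.mpr hall] with P hP hle
  obtain ⟨e, he⟩ := (reduces _ _).mp hle
  exact hP e he

/-- Some sequence is independent: no row is computable from the others. -/
theorem exists_indep : ∃ G : Cantor, ∀ n, ¬ deg (rowOf G n) ≤ deg (offRow G n) := by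
  have hall : ∀ p : ℕ × OCode, ∀ᶠ G in residual Cantor,
      ¬ Comp p.2 (offRow G p.1) (rowOf G p.1) := by
    rintro ⟨n, e⟩
    refine not_mem_closure_residual (S := {G | Comp e (offRow G n) (rowOf G n)}) fun V hV hne => ?_
    by_contra hcon
    push Not at hcon
    have hdense : ∀ W, IsOpen W → W.Nonempty → W ⊆ V →
        ∃ G ∈ W, Comp e (offRow G n) (rowOf G n) := fun W h1 h2 h3 => by
      obtain ⟨G, hG, hGS⟩ := hcon W h1 h2 h3
      exact ⟨G, hG, hGS⟩
    obtain ⟨G, hGV, hG⟩ := hdense V hV hne subset_rfl
    obtain ⟨F, hF⟩ := exists_box V hV hGV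
    let j := F.sup id + 1
    let c := Nat.pair n j
    have hc : c ∉ F := fun hmem => by
      have h1 : c ≤ F.sup id := Finset.le_sup (f := id) hmem
      have h2 : j ≤ c := Nat.right_le_pair n j
      omega
    have hout : (if G c then 1 else 0) ∈ e.run (chi (offRow G n)) j := by
      rw [← hG j]; exact Part.mem_some _
    obtain ⟨L, hL⟩ := (run_use _ e j _ hout).exists
    let G' : Cantor := Function.update G c (!(G c))
    let F' : Finset ℕ := F ∪ Finset.range L ∪ {c}
    have hsub : Box G' F' ⊆ V := fun Y hY => hF fun i hi => by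
      rw [hY i (by simp [F', hi])]
      exact Function.update_of_ne (fun h : i = c => hc (by rw [← h]; exact hi)) _ _
    obtain ⟨Y, hY, hYS⟩ := hdense _ (isOpen_box G' F') ⟨G', fun _ _ => rfl⟩ hsub
    have hpre : pre (offRow Y n) L = pre (offRow G n) L := by
      refine List.map_congr_left fun i hi => ?_
      simp only [offRow]
      by_cases hin : i.unpair.1 = n
      · simp [hin]
      · rw [hY i (by simp [F', List.mem_range.mp hi])]
        have hne : i ≠ c := fun h => hin (by simp [h, c])
        simp [G', Function.update_of_ne hne]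
    have h1 := run_pre_chi (hpre.symm ▸ hL : _ ∈ e.run (listOr (pre (offRow Y n) L)) j)
    rw [← hYS j] at h1
    have h2 : Y c = !(G c) := by rw [hY c (by simp [F'])]; simp [G']
    simp only [chi, rowOf, Part.mem_some_iff] at h1
    have h3 : Y (Nat.pair n j) = !(G c) := h2
    cases hb : G c <;> simp [hb] at h3 <;> simp [hb, h3] at h1
  obtain ⟨G, hG⟩ := (dense_of_mem_residual (eventually_countable_forall.mpr hall)).nonempty
  refine ⟨G, fun n hle => ?_⟩
  obtain ⟨e, he⟩ := (reduces _ _).mp hle
  exact hG (n, e) he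

lemma deg_join_congr {X X' Y Y' : Cantor} (hX : deg X = deg X') (hY : deg Y = deg Y') :
    deg (join X Y) = deg (join X' Y') := by
  refine le_antisymm ((degJoin _ _ _).mpr ⟨?_, ?_⟩) ((degJoin _ _ _).mpr ⟨?_, ?_⟩)
  · rw [hX]; exact deg_le_join_left X' Y'
  · rw [hY]; exact deg_le_join_right X' Y'
  · rw [← hX]; exact deg_le_join_left X Y
  · rw [← hY]; exact deg_le_join_right X Y

lemma selRows_le (B G : Cantor) : deg (selRows B G) ≤ deg (join B G) := by
  obtain ⟨l, hl⟩ := exists_comp_left
  obtain ⟨r, hr⟩ := exists_comp_right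
  obtain ⟨e, he⟩ := exists_comp_map₂ (op := fun _ x y => x && y)
    (f := fun c : ℕ => c.unpair.1) (g := fun c : ℕ => c)
    (Primrec.fst.comp Primrec.unpair).to_comp Computable.id
    (Primrec.and.to_comp.comp (Computable.fst.comp Computable.snd)
      (Computable.snd.comp Computable.snd)) l r
  exact deg_le_iff_comp.mpr ⟨e, he _ B G (hl B G) (hr B G)⟩

lemma rowOf_le {B G : Cantor} {n : ℕ} (h : B n = true) : deg (rowOf G n) ≤ deg (selRows B G) := by
  obtain ⟨e, he⟩ := pullback (fun j => Nat.pair n j)
    (Primrec₂.natPair.comp (Primrec.const n) Primrec.id).to_comp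
  refine (reduces _ _).mpr ⟨e, ?_⟩
  convert he (selRows B G) using 1
  funext j
  simp [rowOf, selRows, h]

lemma selRows_le_off {B G : Cantor} {n : ℕ} (h : B n = false) :
    deg (selRows B G) ≤ deg (join B (offRow G n)) := by
  have heq : selRows B (offRow G n) = selRows B G := by
    funext c
    simp only [selRows, offRow]
    by_cases hc : c.unpair.1 = n <;> simp [hc, h]
  rw [← heq]
  exact selRows_le _ _

/-- The set decoded from an oracle through representatives `Hs` of the coding degrees. -/
noncomputable def decodeSet (c : OCode) (H : Cantor) (Hs : ℕ → Cantor) (A : Cantor) : Cantor :=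
  open Classical in fun n => decide (∃ d, P327.Comp d (out c (join A H)) (Hs n))

lemma measurable_out (c : OCode) : Measurable (out c) := by
  refine measurable_pi_iff.mpr fun n => measurable_to_bool ?_
  convert (measurableSet_mem_run c n 1).measurableSet using 1
  ext X
  simp [out]

lemma measurable_decodeSet (c : OCode) (H : Cantor) (Hs : ℕ → Cantor) :
    Measurable (decodeSet c H Hs) := by
  have hj : Measurable fun A : Cantor => out c (join A H) := by
    refine (measurable_out c).comp (measurable_pi_iff.mpr fun n => ?_)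
    simp only [join]
    split <;> fun_prop
  refine measurable_pi_iff.mpr fun n => measurable_to_bool ?_
  have h : (fun A => decodeSet c H Hs A n) ⁻¹' {true} =
      ⋃ d, {A | P327.Comp d (out c (join A H)) (Hs n)} := by
    ext A
    simp [decodeSet]
  rw [h]
  exact MeasurableSet.iUnion fun d => measurableSet_comp d hj measurable_const

/-- Decoding is exact: the degree of the selection is decoded through an oracle above it. -/
lemma exists_decode (σ : SetDegree ≃o SetDegree) {G H : Cantor} {Hs : ℕ → Cantor}
    (hHs : ∀ n, σ (deg (rowOf G n)) = deg (Hs n)) {B A : Cantor}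
    (hle : σ (deg (selRows B G)) ≤ deg (join A H))
    (hsafe : ∀ n, ¬ deg (rowOf G n) ≤ deg (join B (offRow G n))) :
    ∃ c, decodeSet c H Hs A = B := by
  obtain ⟨Z, hZ⟩ := deg_surjective (σ (deg (selRows B G)))
  obtain ⟨c, hc⟩ := (reduces _ _).mp (hZ.trans_le hle : deg Z ≤ deg (join A H))
  refine ⟨c, funext fun n => ?_⟩
  have hiff : (∃ d, P327.Comp d (out c (join A H)) (Hs n)) ↔
      deg (rowOf G n) ≤ deg (selRows B G) := by
    rw [← deg_le_iff_comp, ← unique c _ _ hc, hZ, ← hHs, OrderIso.le_iff_le]
  cases hb : B n with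
  | true => simpa [decodeSet] using hiff.mpr (rowOf_le hb)
  | false =>
    have hno : ¬ ∃ d, P327.Comp d (out c (join A H)) (Hs n) := fun h =>
      hsafe n ((hiff.mp h).trans (selRows_le_off hb))
    simpa [decodeSet] using hno

/-- Step 0: on a comeager set, countably many Borel functions give an automorphism and its
inverse exactly. -/
theorem borelCover (π : SetDegree ≃o SetDegree) (h : Cantor → Cantor)
    (hπ : ∀ A, π (deg A) = deg (h A)) :
    ∃ f g : OCode → Cantor → Cantor, (∀ e, Measurable (f e)) ∧ (∀ i, Measurable (g i)) ∧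
      ∀ᶠ A in residual Cantor, ∃ e i, f e A = h A ∧ g i (h A) = A := by
  obtain ⟨G, hG⟩ := exists_indep
  obtain ⟨H, hH⟩ := deg_surjective (π.symm (deg G))
  choose Hs hHs using fun n => deg_surjective (π.symm (deg (rowOf G n)))
  choose K hK using fun n => deg_surjective (π.symm (deg (offRow G n)))
  have hnot : ∀ n, ¬ deg (Hs n) ≤ deg (K n) := fun n hle => hG n (by
    rw [hHs, hK, OrderIso.le_iff_le] at hle; exact hle)
  have hev : ∀ n, ∀ᶠ A in residual Cantor,
      ¬ deg (Hs n) ≤ deg (join (K n) A) ∧ ¬ deg (rowOf G n) ≤ deg (join (offRow G n) A) :=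
    fun n => (elim_residual (hnot n)).and (elim_residual (hG n))
  refine ⟨fun c => decodeSet c H Hs, fun c => decodeSet c (h G) (fun n => h (rowOf G n)),
    fun c => measurable_decodeSet _ _ _, fun c => measurable_decodeSet _ _ _, ?_⟩
  filter_upwards [eventually_countable_forall.mpr hev] with A hA
  have hswap : ∀ X Y : Cantor, deg (join X Y) = deg (join Y X) := fun X Y =>
    le_antisymm ((degJoin _ _ _).mpr ⟨deg_le_join_right Y X, deg_le_join_left Y X⟩)
      ((degJoin _ _ _).mpr ⟨deg_le_join_right X Y, deg_le_join_left X Y⟩)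
  have hsymm : ∀ (X : Cantor) (Y : Cantor), deg X = π.symm (deg Y) → deg (h X) = deg Y := by
    intro X Y hXY
    rw [← hπ, hXY, OrderIso.apply_symm_apply]
  obtain ⟨e, he⟩ := exists_decode π.symm (H := H) (Hs := Hs) (fun n => (hHs n).symm) (B := h A)
      (A := A) (by
        rw [← π.le_iff_le, OrderIso.apply_symm_apply]
        refine le_of_le_of_eq (selRows_le (h A) G) ?_
        exact (deg_join_congr rfl (hsymm H G hH).symm).trans (map_deg_join π hπ A H).symm)
      (fun n hle => (hA n).1 (by
        have h1 : deg (join (h A) (offRow G n)) = π (deg (join A (K n))) :=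
          (deg_join_congr rfl (hsymm (K n) _ (hK n)).symm).trans (map_deg_join π hπ A (K n)).symm
        rw [h1, ← OrderIso.symm_apply_le, ← hHs n] at hle
        exact hle.trans (hswap _ _).le))
  obtain ⟨i, hi⟩ := exists_decode π (H := h G) (Hs := fun n => h (rowOf G n))
      (fun n => hπ _) (B := A) (A := h A) (by
        exact le_of_le_of_eq (π.monotone (selRows_le A G)) (map_deg_join π hπ A G))
      (fun n hle => (hA n).2 (hle.trans (hswap _ _).le))
  exact ⟨e, i, he, hi⟩

end P327.Rig
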