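import Vale.Agent.P327.Rig.Interfaces

/-!
P327, rigidity for every automorphism: statements of the coding and category lemmas.
-/

namespace P327.Rig

open P327 Filter

/-- Column `m` is taken from the family `G (B m)`. -/
def sel (G : Bool → ℕ → Cantor) (B : Cantor) : Cantor :=
  fun m => G (B m.unpair.1) m.unpair.1 m.unpair.2

/-- Two families whose selections code the selecting set exactly (Pairs.lean). -/
def PairsStatement : Prop :=
  ∃ G : Bool → ℕ → Cantor, ∀ B n, B n = false → ¬ deg (G true n) ≤ deg (sel G B)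

/-- Countably many Borel maps cover an automorphism (Cover.lean). -/
def CoverAutStatement : Prop :=
  ∀ π : SetDegree ≃o SetDegree, ∃ F : ℕ → Cantor → Cantor,
    (∀ e, Measurable (F e)) ∧ ∀ A, ∃ e, deg (F e A) = π (deg A)

/-! Category lemmas (Category2.lean). -/

def LocalBitsStatement : Prop :=
  ∀ F : Cantor → Cantor, Measurable F → ∃ C ∈ residual Cantor, ∀ X ∈ C, ∀ i,
    ∃ O : Set Cantor, IsOpen O ∧ X ∈ O ∧ ∀ Y ∈ C, Y ∈ O → F Y i = F X i

def BoxAroundStatement : Prop :=
  ∀ E : Set (Cantor × Cantor), MeasurableSet E → ∀ᶠ p in residual (Cantor × Cantor),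
    p ∈ E → ∃ F : Finset ℕ, ∀ᶠ q in residual (Cantor × Cantor),
      q ∈ Box p.1 F ×ˢ Box p.2 F → q ∈ E

def DenseSomewhereStatement : Prop :=
  ∀ D : Set Cantor, ¬ IsMeagre D → ∃ (c : Cantor) (F : Finset ℕ),
    ∀ V : Set Cantor, IsOpen V → V.Nonempty → V ⊆ Box c F → ¬ IsMeagre (D ∩ V)

/-- The easy direction of Kuratowski-Ulam. -/
def SectionStatement (X Y : Type) [TopologicalSpace X] [TopologicalSpace Y] : Prop :=
  ∀ p : X × Y → Prop, (∀ᶠ q in residual (X × Y), p q) →
    ∀ᶠ x in residual X, ∀ᶠ y in residual Y, p (x, y)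

end P327.Rig
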