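import Vale.Agent.P327.Rig.Defs

/-!
P327 rigidity: statements of the computability layer (`Red`) and the category layer (`Category`).
-/

namespace P327.Rig

open P327 Filter

/-! ## Computability layer (Red.lean) -/

def ReducesStatement : Prop :=
  ∀ X Y : Cantor, deg Y ≤ deg X ↔ ∃ c, Comp c X Y

def UniqueStatement : Prop :=
  ∀ (c : OCode) (X Y : Cantor), Comp c X Y → Y = out c X

def SubstStatement : Prop :=
  ∀ c c' : OCode, ∃ e, ∀ X U V, Comp c X U → Comp c' U V → Comp e X V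

def JoinStatement : Prop :=
  ∀ c c' : OCode, ∃ e, ∀ X U V, Comp c X U → Comp c' X V → Comp e X (join U V)

def PullbackStatement : Prop :=
  ∀ f : ℕ → ℕ, Computable f → ∃ e, ∀ X : Cantor, Comp e X (fun n => X (f n))

def XorStatement : Prop :=
  ∃ e, ∀ X Y : Cantor, Comp e (join X Y) (xr X Y)

def DegJoinStatement : Prop :=
  ∀ (X Y : Cantor) (d : SetDegree), deg (join X Y) ≤ d ↔ deg X ≤ d ∧ deg Y ≤ d

def MaskStatement : Prop :=
  ∀ (a : Cantor) (p : ℕ → Bool) (f : ℕ → ℕ), Computable p → Computable f →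
    deg (fun n => p n && a (f n)) ≤ deg a

/-- Iterating one program from fixed parameters and reading off a fixed bit. -/
def IterateStatement : Prop :=
  ∀ (e e' : OCode) (k : ℕ → ℕ) (i : ℕ) (b : Bool) (Z W : ℕ → Cantor) (P a : Cantor),
    Computable k → (∀ n, Comp e (join (Z n) P) (Z (n + 1))) →
    (∀ j, Comp e' (join (Z (k j)) P) (W j)) → (∀ j, a j = (W j i ^^ b)) →
    deg a ≤ deg (join (Z 0) P)

/-- A parameter that may be chosen densely in a basic open set is redundant. -/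
def ElimStatement : Prop :=
  ∀ (e : OCode) (a B c : Cantor) (G : Finset ℕ),
    (∀ V : Set Cantor, IsOpen V → V.Nonempty → V ⊆ Box c G → ∃ P ∈ V, Comp e (join a P) B) →
    deg B ≤ deg a

/-! ## Category layer (Category.lean) -/

def OpenBoxStatement : Prop :=
  ∀ (V : Set Cantor), IsOpen V → ∀ X ∈ V, ∀ F : Finset ℕ, ∃ G, F ⊆ G ∧ Box X G ⊆ V

def OpenBox2Statement : Prop :=
  ∀ (V : Set (Cantor × Cantor)), IsOpen V → ∀ p ∈ V, ∀ F : Finset ℕ,
    ∃ G, F ⊆ G ∧ Box p.1 G ×ˢ Box p.2 G ⊆ V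

def CoverStatement (Z : Type) [TopologicalSpace Z] [MeasurableSpace Z] : Prop :=
  ∀ {ι : Type} [Countable ι] (E : ι → Set Z) (U : Set Z), IsOpen U → U.Nonempty →
    (∀ i, MeasurableSet (E i)) → (∀ᶠ x in residual Z, x ∈ U → ∃ i, x ∈ E i) →
    ∃ i, ∃ V : Set Z, IsOpen V ∧ V.Nonempty ∧ V ⊆ U ∧ ∀ᶠ x in residual Z, x ∈ V → x ∈ E i

def ExistsMemStatement : Prop :=
  ∀ (V : Set Cantor) (p : Cantor → Prop), IsOpen V → V.Nonempty →
    (∀ᶠ x in residual Cantor, p x) → ∃ x ∈ V, p x

def MeasCompStatement : Prop :=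
  ∀ c : OCode, MeasurableSet {p : Cantor × Cantor | Comp c p.1 p.2} ∧ Measurable (out c)

/-- A measurable map with countable fibres is not invariant under all finite translations. -/
def NonInvStatement : Prop :=
  ∀ h : Cantor → Cantor, Measurable h → (∀ y, (h ⁻¹' {y}).Countable) →
    ∀ (a₀ : Cantor) (F₀ F₁ : Finset ℕ), ∃ (v : Cantor) (S : Finset ℕ),
      (∀ n, n ∉ S → v n = false) ∧ (∀ n ∈ F₀ ∪ F₁, v n = false) ∧
      ¬ ∀ᶠ X in residual Cantor, X ∈ Box a₀ F₀ → h (xr X v) = h X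

/-- A map with countable fibres: sets of a given degree. -/
def CountableDegStatement : Prop :=
  ∀ d : SetDegree, {X : Cantor | deg X = d}.Countable

def ContinuityStatement : Prop :=
  Continuous (fun p : Cantor × Cantor => join p.1 p.2) ∧
  Continuous (fun p : Cantor × Cantor => xr p.1 p.2) ∧
  Continuous shiftS ∧ Continuous transp ∧ ∀ a F, IsOpen (Box a F)

end P327.Rig
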