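import Vale.Agent.P327.Func
import Vale.Agent.P327.Rig.Interfaces

/-!
The computability layer of the rigidity proof.
-/

namespace P327.Rig

open P327

lemma comp_iff {c : OCode} {X Y : Cantor} : Comp c X Y ↔ P327.Comp c X Y :=
  ⟨fun h n => (h n).symm, fun h n => (h n).symm⟩

theorem reduces : ReducesStatement := fun _ _ =>
  deg_le_iff_comp.trans ⟨fun ⟨c, hc⟩ => ⟨c, comp_iff.mpr hc⟩, fun ⟨c, hc⟩ => ⟨c, comp_iff.mp hc⟩⟩

theorem unique : UniqueStatement := by
  intro c X Y h
  funext n
  simp only [out, ← h n, chi, Part.mem_some_iff]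
  cases Y n <;> simp

theorem subst : SubstStatement := fun c c' =>
  ⟨c'.subst c, fun _ _ _ h h' => comp_iff.mpr ((comp_iff.mp h).trans (comp_iff.mp h'))⟩

theorem joinCode : JoinStatement := by
  intro c c'
  obtain ⟨e, he⟩ := exists_comp_join c c'
  exact ⟨e, fun X U V h h' => comp_iff.mpr (he X U V (comp_iff.mp h) (comp_iff.mp h'))⟩

theorem pullback : PullbackStatement := by
  intro f hf
  obtain ⟨e, he⟩ := exists_comp_pullback hf
  exact ⟨e, fun X => comp_iff.mpr (he X)⟩

theorem xorCode : XorStatement := by
  obtain ⟨l, hl⟩ := exists_comp_left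
  obtain ⟨r, hr⟩ := exists_comp_right
  obtain ⟨e, he⟩ := exists_comp_xor l r
  exact ⟨e, fun X Y => comp_iff.mpr (he _ X Y (hl X Y) (hr X Y))⟩

theorem degJoin : DegJoinStatement := by
  intro X Y d
  obtain ⟨Z, rfl⟩ := deg_surjective d
  exact ⟨fun h => ⟨(deg_le_join_left X Y).trans h, (deg_le_join_right X Y).trans h⟩,
    fun h => deg_join_le h.1 h.2⟩

theorem mask : MaskStatement := by
  intro a p f hp hf
  obtain ⟨e, he⟩ := exists_comp_map₂ (op := fun n x _ => p n && x) hf hf
    (Primrec.and.to_comp.comp (hp.comp Computable.fst) (Computable.fst.comp Computable.snd))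
    .query .query
  exact deg_le_iff_comp.mpr ⟨e, he a a a (comp_query a) (comp_query a)⟩

theorem iterate : IterateStatement := by
  intro e e' k i b Z W P a hk hZ hW ha
  obtain ⟨r, hr⟩ := exists_comp_right
  obtain ⟨e1, he1⟩ := exists_comp_join e r
  obtain ⟨e2, he2⟩ := exists_comp_map₂ (op := fun _ x _ => x ^^ b) Computable.id Computable.id
    ((show Computable fun x : Bool => x ^^ b from
      ((Primrec.cond Primrec.id (Primrec.const (!b)) (Primrec.const b)).of_eq
        fun x => by cases x <;> cases b <;> rfl).to_comp).comp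
      (Computable.fst.comp Computable.snd))
    e' e'
  refine iterate_decode (S := fun n => P327.join (Z n) P) (O := fun j m => W j m ^^ b)
    (i := i) (e := e1) (e' := e2) hk (fun n => ?_) (fun j => ?_) (fun j => (ha j).symm)
  · exact he1 _ _ _ (comp_iff.mp (hZ n)) (hr (Z n) P)
  · exact he2 _ _ _ (comp_iff.mp (hW j)) (comp_iff.mp (hW j))

theorem elim : ElimStatement := by
  intro e a B c G hdense
  let L := G.sup id + 1
  refine generic_elim (e := e) (D := {P | P327.Comp e (P327.join a P) B}) (sig := pre c L)
    (fun t => ?_) (fun P hP => hP)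
  let l := pre c L ++ t
  let V : Set Cantor := {X | pre X l.length = l}
  have hV : IsOpen V := by
    have h : V = ⋂ i ∈ Finset.range l.length, {X | X i = (l[i]?).getD false} := by
      ext X
      simp only [V, Set.mem_ofPred_eq, Set.mem_iInter, Finset.mem_range]
      constructor
      · intro hX i hi
        have hX' : (pre X l.length)[i]? = l[i]? := by rw [hX]
        rw [← hX']
        simp [pre, hi]
      · intro hX
        refine List.ext_getElem (by simp [pre]) fun i _ h2 => ?_
        simp [pre, hX i h2, h2]
    rw [h]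
    refine isOpen_biInter_finset fun i _ => ?_
    have hc : Continuous fun Y : Cantor => Y i := continuous_apply i
    exact hc.isOpen_preimage ({(l[i]?).getD false} : Set Bool) (isOpen_discrete _)
  have hne : V.Nonempty := by
    refine ⟨fun i => (l[i]?).getD false, List.ext_getElem (by simp [pre]) fun i _ h2 => ?_⟩
    simp [pre, h2]
  have hsub : V ⊆ Box c G := by
    intro X hX i hi
    have hiL : i < L := Nat.lt_succ_of_le (Finset.le_sup (f := id) hi)
    have hX' : (pre X l.length)[i]? = l[i]? := by rw [show pre X l.length = l from hX]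
    have hlen : i < l.length := by simp [l, pre]; omega
    simp [pre, hlen] at hX'
    simpa [l, pre, hiL, List.getElem_append] using hX'
  obtain ⟨P, hPV, hP⟩ := hdense V hV hne hsub
  exact ⟨P, comp_iff.mp hP, hPV⟩

end P327.Rig
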