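import Vale.Agent.P327.Rig.Defs
import Vale.Agent.P327.Rig.Red
import Vale.Agent.P327.Rig.Interfaces2

/-!
P327 rigidity, the coding lemma: two families at the same position.
A point `G` holds the cells `2 k` (family 0) and `2 k + 1` (family 1), `k = Nat.pair n i`.
-/

namespace P327.Rig

open P327 Filter Topology

/-- Column `n` of family `b` of `G`. -/
def gcol (G : Cantor) (b : Bool) (n : ℕ) : Cantor :=
  fun i => G (2 * Nat.pair n i + cond b 1 0)

/-- The selection of `B`: column `n` is column `n` of family `B n`. -/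
def selCells (G B : Cantor) : Cantor :=
  fun k => G (2 * k + cond (B k.unpair.1) 1 0)

/-- Some finite extension decides a given bit of a program on all points above it. -/
lemma decide_bit (c : OCode) (l : ℕ) (p : Cantor) (N : ℕ) :
    ∃ (q : Cantor) (N' : ℕ) (v : Bool), N ≤ N' ∧ (∀ k < N, q k = p k) ∧
      ∀ x y : Cantor, (∀ k < N', x k = q k) → Comp c x y → y l = v := by
  by_cases h : ∃ x y : Cantor, (∀ k < N, x k = p k) ∧ Comp c x y
  · obtain ⟨x₀, y₀, hx₀, hy₀⟩ := h
    have hv : (if y₀ l then 1 else 0) ∈ c.run (chi x₀) l := by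
      rw [← hy₀ l]; simp [chi]
    obtain ⟨L, hL⟩ := eventually_atTop.mp (run_use x₀ c l _ hv)
    refine ⟨x₀, max N L, y₀ l, le_max_left _ _, hx₀, fun x y hx hy => ?_⟩
    have hpre : pre x L = pre x₀ L := by
      refine List.map_congr_left fun k hk => ?_
      exact hx k (lt_of_lt_of_le (List.mem_range.mp hk) (le_max_right _ _))
    have h1 : (if y₀ l then 1 else 0) ∈ c.run (chi x) l :=
      run_pre_chi (L := L) (by rw [hpre]; exact hL L le_rfl)
    rw [← hy l] at h1
    simp only [chi, Part.mem_some_iff] at h1
    cases hyl : y l <;> cases hy₀l : y₀ l <;> simp [hyl, hy₀l] at h1 ⊢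
  · exact ⟨p, N, false, le_rfl, fun _ _ => rfl, fun x y hx hy => absurd ⟨x, y, hx, hy⟩ h⟩

/-- All branches at once: one common extension beyond `N`, one decided bit for each branch. -/
lemma decide_branches {ι : Type} (c : OCode) (N : ℕ) (pf : ι → Cantor) (l : ι → ℕ)
    (S : Finset ι) :
    ∃ (w : Cantor) (N' : ℕ) (v : ι → Bool), N ≤ N' ∧ ∀ β ∈ S, ∀ x y : Cantor,
      (∀ k < N, x k = pf β k) → (∀ k, N ≤ k → k < N' → x k = w k) → Comp c x y →
        y (l β) = v β := by
  classical
  induction S using Finset.induction_on with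
  | empty => exact ⟨fun _ => false, N, fun _ => false, le_rfl, by simp⟩
  | insert β S hβ ih =>
    obtain ⟨w, N₁, v, hN₁, hS⟩ := ih
    obtain ⟨q, N₂, v₂, hN₂, hq, hdec⟩ :=
      decide_bit c (l β) (fun k => if k < N then pf β k else w k) N₁
    refine ⟨q, N₂, Function.update v β v₂, hN₁.trans hN₂, fun γ hγ x y hp hw hy => ?_⟩
    rcases eq_or_ne γ β with rfl | hne
    · rw [Function.update_self]
      refine hdec x y (fun k hk => ?_) hy
      rcases lt_or_ge k N with h | h
      · rw [hp k h, hq k (lt_of_lt_of_le h hN₁), if_pos h]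
      · exact hw k h hk
    · rw [Function.update_of_ne hne]
      refine hS γ (Finset.mem_of_mem_insert_of_ne hγ hne) x y hp (fun k h1 h2 => ?_) hy
      rw [hw k h1 (lt_of_lt_of_le h2 hN₂), hq k h2, if_neg (not_lt.mpr h1)]

/-- Below any condition, a condition forcing that program `c` does not compute column `n` of
family 1 from any selection that takes family 0 at `n`. -/
lemma pairs_dense (c : OCode) (n : ℕ) (a : Cantor) (N : ℕ) :
    ∃ (b : Cantor) (M : ℕ), (∀ i < 2 * N, b i = a i) ∧
      ∀ G : Cantor, (∀ i < M, G i = b i) → ∀ B : Cantor, B n = false →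
        ¬ Comp c (selCells G B) (gcol G true n) := by
  classical
  let ext' : (Fin N → Bool) → Cantor := fun β r => if h : r < N then β ⟨r, h⟩ else false
  let pf : (Fin N → Bool) → Cantor :=
    fun β k => a (2 * k + cond (ext' β k.unpair.1) 1 0)
  let enum := Fintype.equivFin (Fin N → Bool)
  let l : (Fin N → Bool) → ℕ := fun β => N + (enum β : ℕ)
  obtain ⟨w, N', v, hN, hall⟩ := decide_branches c N pf l Finset.univ
  let bad : ℕ → Bool := fun k =>
    if h : ∃ β, l β = k then !v h.choose else false
  let b : Cantor := fun i =>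
    if i < 2 * N then a i
    else if i % 2 = 1 ∧ (i / 2).unpair.1 = n then bad (i / 2).unpair.2
    else w (i / 2)
  let M := 2 * (N' + ∑ β : Fin N → Bool, (Nat.pair n (l β) + 1))
  refine ⟨b, M, fun i hi => if_pos hi, fun G hG B hB hcomp => ?_⟩
  let β : Fin N → Bool := fun r => B r
  have hcell : ∀ k < N', ∀ d : ℕ, d ≤ 1 → G (2 * k + d) = b (2 * k + d) := by
    intro k hk d hd
    exact hG _ (by simp only [M]; omega)
  have hx : ∀ k < N, selCells G B k = pf β k := by
    intro k hk
    have hrow : k.unpair.1 < N := lt_of_le_of_lt (Nat.unpair_left_le k) hk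
    have hext : ext' β k.unpair.1 = B k.unpair.1 := by simp [ext', β, hrow]
    simp only [selCells, pf, hext]
    cases hb : B k.unpair.1 <;> simp only [cond] <;>
      rw [hcell k (lt_of_lt_of_le hk hN) _ (by omega)] <;>
      exact if_pos (by omega)
  have hw : ∀ k, N ≤ k → k < N' → selCells G B k = w k := by
    intro k h1 h2
    simp only [selCells]
    cases hb : B k.unpair.1 with
    | false =>
      simp only [cond]
      rw [hcell k h2 0 (by omega)]
      simp only [b]
      rw [if_neg (by omega), if_neg (by omega)]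
      congr 1
      omega
    | true =>
      simp only [cond]
      rw [hcell k h2 1 le_rfl]
      have hdiv : (2 * k + 1) / 2 = k := by omega
      simp only [b, hdiv]
      rw [if_neg (by omega), if_neg]
      rintro ⟨_, hrn⟩
      rw [hrn, hB] at hb
      exact Bool.false_ne_true hb
  have hy := hall β (Finset.mem_univ _) (selCells G B) (gcol G true n) hx hw hcomp
  have hle : N ≤ Nat.pair n (l β) := le_trans (Nat.le_add_right _ _) (Nat.right_le_pair n (l β))
  have hM : 2 * Nat.pair n (l β) + 1 < M := by
    have := Finset.single_le_sum (f := fun γ : Fin N → Bool => Nat.pair n (l γ) + 1)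
      (fun _ _ => Nat.zero_le _) (Finset.mem_univ β)
    simp only [M]
    omega
  have hlinj : Function.Injective l := fun x y h => by
    simp only [l, Nat.add_left_cancel_iff] at h
    exact enum.injective (Fin.ext h)
  have hdiv : (2 * Nat.pair n (l β) + 1) / 2 = Nat.pair n (l β) := by omega
  have hcol : gcol G true n (l β) = bad (l β) := by
    simp only [gcol, cond]
    rw [hG _ hM]
    simp only [b, hdiv, Nat.unpair_pair]
    rw [if_neg (by omega), if_pos ⟨by omega, trivial⟩]
  have hbad : bad (l β) = !v β := by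
    have h : ∃ γ, l γ = l β := ⟨β, rfl⟩
    simp only [bad, dif_pos h]
    rw [hlinj h.choose_spec]
  rw [hy, hbad] at hcol
  cases v β <;> simp at hcol

/-- For a generic pair of families, a selection computes exactly the selected columns of
family 1. -/
theorem pairs_generic :
    ∀ᶠ G in residual Cantor, ∀ (B : Cantor) (n : ℕ), B n = false →
      ¬ deg (gcol G true n) ≤ deg (selCells G B) := by
  have key : ∀ p : OCode × ℕ, ∀ᶠ G in residual Cantor, ∀ B : Cantor, B p.2 = false →
      ¬ Comp p.1 (selCells G B) (gcol G true p.2) := by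
    rintro ⟨c, n⟩
    let U : Set Cantor := interior {G | ∀ B : Cantor, B n = false →
      ¬ Comp c (selCells G B) (gcol G true n)}
    have hU : Dense U := by
      rw [dense_iff_inter_open]
      intro V hV ⟨a, ha⟩
      obtain ⟨F, u, hu, hsub⟩ := isOpen_pi_iff.mp hV a ha
      obtain ⟨b, M, hb, hG⟩ := pairs_dense c n a (F.sup id + 1)
      refine ⟨b, hsub ?_, mem_interior.mpr ⟨{G | ∀ i < M, G i = b i}, fun G h => hG G h, ?_,
        fun _ _ => rfl⟩⟩
      · intro i hi
        rw [hb i (by have := Finset.le_sup (f := id) hi; simp only [id] at this; omega)]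
        exact (hu i hi).2
      · have he : {G : Cantor | ∀ i < M, G i = b i}
            = Set.pi (Finset.range M : Set ℕ) (fun i => {b i}) := by
          ext G; simp [Set.mem_pi]
        rw [he]
        exact isOpen_set_pi (Finset.finite_toSet _) fun i _ => isOpen_discrete _
    filter_upwards [residual_of_dense_open isOpen_interior hU] with G hG
    exact interior_subset hG
  filter_upwards [eventually_countable_forall.mpr key] with G hG B n hB hle
  obtain ⟨c, hc⟩ := (reduces _ _).mp hle
  exact hG (c, n) B hB hc

theorem sel_le (G B : Cantor) : deg (selCells G B) ≤ deg (P327.join B G) := by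
  have hf0 : Computable fun k : ℕ => 2 * k :=
    (Primrec.nat_mul.comp (Primrec.const 2) Primrec.id).to_comp
  have hf1 : Computable fun k : ℕ => 2 * k + 1 :=
    (Primrec.nat_add.comp (Primrec.nat_mul.comp (Primrec.const 2) Primrec.id)
      (Primrec.const 1)).to_comp
  obtain ⟨e0, he0⟩ := exists_comp_pullback hf0
  obtain ⟨e1, he1⟩ := exists_comp_pullback hf1
  obtain ⟨eu, heu⟩ := exists_comp_pullback (f := fun k : ℕ => k.unpair.1)
    (Primrec.fst.comp Primrec.unpair).to_comp
  have hA : deg (fun k => G (2 * k)) ≤ deg (P327.join B G) :=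
    (deg_le_iff_comp.mpr ⟨e0, he0 G⟩).trans (deg_le_join_right B G)
  have hC : deg (fun k => G (2 * k + 1)) ≤ deg (P327.join B G) :=
    (deg_le_iff_comp.mpr ⟨e1, he1 G⟩).trans (deg_le_join_right B G)
  have hB : deg (fun k => B k.unpair.1) ≤ deg (P327.join B G) :=
    (deg_le_iff_comp.mpr ⟨eu, heu B⟩).trans (deg_le_join_left B G)
  have h2 := deg_join_le hB (deg_join_le hA hC)
  refine le_trans ?_ h2
  set J := P327.join (fun k => B k.unpair.1) (P327.join (fun k => G (2 * k)) (fun k => G (2 * k + 1)))
  have g0 : deg (fun k => G (2 * k)) ≤ deg J :=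
    (deg_le_join_left _ _).trans (deg_le_join_right _ _)
  have g1 : deg (fun k => G (2 * k + 1)) ≤ deg J :=
    (deg_le_join_right _ _).trans (deg_le_join_right _ _)
  obtain ⟨c0, hc0⟩ := deg_le_iff_comp.mp g0
  obtain ⟨c1, hc1⟩ := deg_le_iff_comp.mp g1
  obtain ⟨cb, hcb⟩ := deg_le_iff_comp.mp (deg_le_join_left (fun k => B k.unpair.1)
    (P327.join (fun k => G (2 * k)) (fun k => G (2 * k + 1))))
  -- choose between the two families
  obtain ⟨e, he⟩ := exists_comp_map₂ (f := fun k : ℕ => k) (g := fun k => k)
    (op := fun _ x y => x && y) Computable.id Computable.id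
    (Primrec.and.to_comp.comp (Computable.fst.comp Computable.snd)
      (Computable.snd.comp Computable.snd)) cb c1
  obtain ⟨e', he'⟩ := exists_comp_map₂ (f := fun k : ℕ => k) (g := fun k => k)
    (op := fun _ x y => !x && y) Computable.id Computable.id
    (Primrec.and.to_comp.comp (Primrec.not.to_comp.comp (Computable.fst.comp Computable.snd))
      (Computable.snd.comp Computable.snd)) cb c0
  obtain ⟨e'', he''⟩ := exists_comp_map₂ (f := fun k : ℕ => k) (g := fun k => k)
    (op := fun _ x y => x || y) Computable.id Computable.id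
    (Primrec.or.to_comp.comp (Computable.fst.comp Computable.snd)
      (Computable.snd.comp Computable.snd)) e e'
  refine deg_le_iff_comp.mpr ⟨e'', ?_⟩
  have h := he'' J _ _ (he J _ _ hcb hc1) (he' J _ _ hcb hc0)
  convert h using 1
  funext k
  simp only [selCells]
  cases B k.unpair.1 <;> simp

theorem gcol_le_sel {G B : Cantor} {n : ℕ} (h : B n = true) :
    deg (gcol G true n) ≤ deg (selCells G B) := by
  obtain ⟨e, he⟩ := exists_comp_pullback (f := fun i : ℕ => Nat.pair n i)
    (Primrec₂.natPair.comp (Primrec.const n) Primrec.id).to_comp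
  refine deg_le_iff_comp.mpr ⟨e, ?_⟩
  have := he (selCells G B)
  have hg : gcol G true n = fun i => G (2 * Nat.pair n i + 1) := rfl
  rw [hg]
  simpa [selCells, h] using this

lemma sel_gcol (G B : Cantor) : sel (gcol G) B = selCells G B := by
  funext k
  simp only [sel, selCells, gcol, Nat.pair_unpair]

/-- The statement of the coding interface, with the two companion facts. -/
theorem pairs_full : ∃ (G : Bool → ℕ → Cantor) (H : Cantor),
    (∀ B n, B n = false → ¬ deg (G true n) ≤ deg (sel G B)) ∧
    (∀ B, deg (sel G B) ≤ deg (P327.join B H)) ∧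
    (∀ B n, B n = true → deg (G true n) ≤ deg (sel G B)) := by
  obtain ⟨G, hG⟩ := (dense_of_mem_residual pairs_generic).nonempty
  refine ⟨gcol G, G, fun B n h => ?_, fun B => ?_, fun B n h => ?_⟩ <;> rw [sel_gcol]
  · exact hG B n h
  · exact sel_le G B
  · exact gcol_le_sel h

theorem pairs : PairsStatement := by
  obtain ⟨G, _, h, _⟩ := pairs_full
  exact ⟨G, h⟩

end P327.Rig
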