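import Vale.Agent.P327.Rig.Cover
import Vale.Agent.P327.Rig.Interfaces2
import Vale.Agent.P327.Rig.Pairs

/-!
Countably many Borel maps cover an automorphism at every set, from the two-family coding lemma.
-/

namespace P327.Rig

open P327 Filter

/-- All columns of one family. -/
def family (G : Bool → ℕ → Cantor) (b : Bool) : Cantor := fun m => G b m.unpair.1 m.unpair.2

lemma sel_le_families (G : Bool → ℕ → Cantor) (B : Cantor) :
    deg (sel G B) ≤ deg (join B (join (family G false) (family G true))) := by
  obtain ⟨l, hl⟩ := exists_comp_left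
  obtain ⟨r, hr⟩ := exists_comp_right
  obtain ⟨er, her⟩ := exists_comp_pullback (f := fun m : ℕ => m.unpair.1)
    (Primrec.fst.comp Primrec.unpair).to_comp
  have hop1 : Computable fun p : ℕ × Bool × Bool => p.2.1 && p.2.2 :=
    Primrec.and.to_comp.comp (Computable.fst.comp Computable.snd)
      (Computable.snd.comp Computable.snd)
  have hop0 : Computable fun p : ℕ × Bool × Bool => !p.2.1 && p.2.2 :=
    Primrec.and.to_comp.comp (Primrec.not.to_comp.comp (Computable.fst.comp Computable.snd))
      (Computable.snd.comp Computable.snd)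
  have hop2 : Computable fun p : ℕ × Bool × Bool => p.2.1 || p.2.2 :=
    Primrec.or.to_comp.comp (Computable.fst.comp Computable.snd)
      (Computable.snd.comp Computable.snd)
  obtain ⟨e1, he1⟩ := exists_comp_map₂ (f := fun m : ℕ => m.unpair.1) (g := fun m : ℕ => m)
    (op := fun _ x y => x && y) (Primrec.fst.comp Primrec.unpair).to_comp Computable.id hop1
    l (r.subst r)
  obtain ⟨e0, he0⟩ := exists_comp_map₂ (f := fun m : ℕ => m.unpair.1) (g := fun m : ℕ => m)
    (op := fun _ x y => !x && y) (Primrec.fst.comp Primrec.unpair).to_comp Computable.id hop0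
    l (l.subst r)
  obtain ⟨e, he⟩ := exists_comp_map₂ (f := fun m : ℕ => m) (g := fun m : ℕ => m)
    (op := fun _ x y => x || y) Computable.id Computable.id hop2 e1 e0
  let J := P327.join B (P327.join (family G false) (family G true))
  have hB : P327.Comp l J B := hl B _
  have h1 : P327.Comp (r.subst r) J (family G true) :=
    (hr B (P327.join (family G false) (family G true))).trans (hr _ _)
  have h0 : P327.Comp (l.subst r) J (family G false) :=
    (hr B (P327.join (family G false) (family G true))).trans (hl _ _)
  have hsel : sel G B = fun m => (B m.unpair.1 && family G true m) ||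
      (!B m.unpair.1 && family G false m) := by
    funext m
    simp only [sel, family]
    cases B m.unpair.1 <;> simp
  rw [hsel]
  exact deg_le_iff_comp.mpr ⟨e, he J _ _ (he1 J _ _ hB h1) (he0 J _ _ hB h0)⟩

lemma column_le_sel {G : Bool → ℕ → Cantor} {B : Cantor} {n : ℕ} (h : B n = true) :
    deg (G true n) ≤ deg (sel G B) := by
  obtain ⟨e, he⟩ := exists_comp_pullback (f := fun j : ℕ => Nat.pair n j)
    (Primrec₂.natPair.comp (Primrec.const n) Primrec.id).to_comp
  refine deg_le_iff_comp.mpr ⟨e, ?_⟩
  simpa [sel, h] using he (sel G B)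

/-- The cover, from the coding lemma. -/
theorem coverAutOf (hp : PairsStatement) : CoverAutStatement := by
  intro π
  obtain ⟨G, hG⟩ := hp
  obtain ⟨H, hH⟩ := deg_surjective (π.symm (deg (join (family G false) (family G true))))
  choose Hs hHs using fun n => deg_surjective (π.symm (deg (G true n)))
  have : Nonempty OCode := ⟨.zero⟩
  obtain ⟨enum, henum⟩ := exists_surjective_nat OCode
  refine ⟨fun e => decodeSet (enum e) H Hs, fun e => measurable_decodeSet _ _ _, fun A => ?_⟩
  obtain ⟨B, hB⟩ := deg_surjective (π (deg A))
  have h1 : deg A ≤ deg (join A H) := deg_le_join_left A H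
  have h2 : deg H ≤ deg (join A H) := deg_le_join_right A H
  have hle : π.symm (deg (sel G B)) ≤ deg (join A H) := by
    rw [OrderIso.symm_apply_le]
    obtain ⟨V, hV⟩ := deg_surjective (π (deg (join A H)))
    rw [← hV]
    refine (sel_le_families G B).trans (deg_join_le ?_ ?_)
    · rw [hV]; exact hB.trans_le (π.monotone h1)
    · rw [hV, ← OrderIso.symm_apply_le, ← hH]; exact h2
  obtain ⟨Z, hZ⟩ := deg_surjective (π.symm (deg (sel G B)))
  obtain ⟨c, hc⟩ := (reduces _ _).mp (hZ.trans_le hle : deg Z ≤ deg (join A H))
  obtain ⟨e, rfl⟩ := henum c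
  refine ⟨e, ?_⟩
  have hiff : ∀ n, (∃ d, P327.Comp d (out (enum e) (join A H)) (Hs n)) ↔
      deg (G true n) ≤ deg (sel G B) := fun n => by
    rw [← deg_le_iff_comp, ← unique (enum e) _ _ hc, hZ, hHs, OrderIso.le_iff_le]
  have heq : decodeSet (enum e) H Hs A = B := by
    funext n
    cases hb : B n with
    | true => simpa [decodeSet] using (hiff n).mpr (column_le_sel hb)
    | false =>
      have hno : ¬ ∃ d, P327.Comp d (out (enum e) (join A H)) (Hs n) := fun h =>
        hG B n hb ((hiff n).mp h)
      simpa [decodeSet] using hno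
  change deg (decodeSet (enum e) H Hs A) = π (deg A)
  rw [heq, hB]

/-- Every automorphism is covered by countably many Borel maps. -/
theorem coverAut : CoverAutStatement := coverAutOf pairs

end P327.Rig
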