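import Vale.Agent.P327.Oracle

/-!
P327, automorphisms of the Turing degrees with a Borel representation: shared definitions.
Two-dimensional coordinates are coded by `Nat.pair row col`.
-/

namespace P327.Rig

open P327

/-- Cantor space. -/
abbrev Cantor := ℕ → Bool

/-- The join of two sets: evens and odds. -/
def join (X Y : Cantor) : Cantor := fun n => if n % 2 = 0 then X (n / 2) else Y (n / 2)

/-- Bitwise exclusive or. -/
def xr (X Y : Cantor) : Cantor := fun n => X n ^^ Y n

/-- Shift to the left inside every row. -/
def shiftS (X : Cantor) : Cantor := fun n => X (Nat.pair n.unpair.1 (n.unpair.2 + 1))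

/-- Exchange rows and columns. -/
def transp (X : Cantor) : Cantor := fun n => X (Nat.pair n.unpair.2 n.unpair.1)

/-- The basic clopen set of points agreeing with `a` on `F`. -/
def Box (a : Cantor) (F : Finset ℕ) : Set Cantor := {X | ∀ i ∈ F, X i = a i}

/-- The program `c` with oracle `X` computes `Y`. -/
def Comp (c : OCode) (X Y : Cantor) : Prop := ∀ n, chi Y n = c.run (chi X) n

open Classical in
/-- The set computed by a program from an oracle (junk where the program is not defined). -/
noncomputable def out (c : OCode) (X : Cantor) : Cantor :=
  fun n => decide (1 ∈ c.run (chi X) n)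

end P327.Rig
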