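import Vale.Agent.P327.Rig.FullPoints

/-!
P327: the inverse of every automorphism of the Turing degrees is below the identity.
One parameter `z` fixes all programs, so no choice of representatives has to be regular.
-/

namespace P327.Rig

open P327 Filter Topology

/-- The pairs on which a program computes the shift step. -/
def shiftSet (F : ℕ → Cantor → Cantor) (i : (ℕ × ℕ × ℕ) × OCode) : Set (Cantor × Cantor) :=
  {q | Comp i.2 (join (F i.1.1 q.1) (F i.1.2.1 q.2)) (F i.1.2.2 (xr (shiftS q.1) q.2))}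

/-- The pairs on which a program computes the translation. -/
def transSet (F : ℕ → Cantor → Cantor) (i : (ℕ × ℕ × ℕ) × OCode) : Set (Cantor × Cantor) :=
  {q | Comp i.2 (join (F i.1.1 q.1) (F i.1.2.1 q.2)) (F i.1.2.2 (xr q.1 q.2))}

lemma inter_eventually {D : Set Cantor} (hD : ¬ IsMeagre D) {p : Cantor → Prop}
    (hp : ∀ᶠ x in residual Cantor, p x) : ¬ IsMeagre (D ∩ {x | p x}) := fun h => hD <| by
  filter_upwards [h, hp] with x hx hpx hxD
  exact hx ⟨hxD, hpx⟩

variable (L : Layer) {π : SetDegree ≃o SetDegree}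
include L

lemma not_meagre_of_eventually {p : Cantor → Prop} (hp : ∀ᶠ x in residual Cantor, p x) :
    ¬ IsMeagre {x | p x} := fun h => by
  obtain ⟨x, -, hx, hx'⟩ := L.existsMem Set.univ (fun x => p x ∧ x ∈ {x | p x}ᶜ) isOpen_univ
    ⟨fun _ => false, trivial⟩ (hp.and h)
  exact hx' hx

lemma rep_join_le {X Y Z fX fY fZ : Cantor} (hX : deg fX = π (deg X)) (hY : deg fY = π (deg Y))
    (hZ : deg fZ = π (deg Z)) (h : deg Z ≤ deg (join X Y)) : ∃ c, Comp c (join fX fY) fZ := by
  refine (L.reduces _ _).mp ?_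
  rw [hZ]
  refine (π.monotone h).trans ?_
  rw [← OrderIso.le_symm_apply, L.degJoin, OrderIso.le_symm_apply, OrderIso.le_symm_apply, ← hX,
    ← hY]
  exact ⟨L.le_join_left _ _, L.le_join_right _ _⟩

/-- The main lemma. -/
theorem symm_le (dense : DenseSomewhereStatement)
    (sect : SectionStatement Cantor (Cantor × Cantor)) (sect₁ : SectionStatement Cantor Cantor)
    {F : ℕ → Cantor → Cantor} (hF : ∀ e, Measurable (F e))
    (hcov : ∀ A, ∃ e, deg (F e A) = π (deg A))
    (A : Cantor) (hA : ¬ deg A ≤ deg (fun _ => false)) {B : Cantor}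
    (hB : deg B = π.symm (deg A)) : deg B ≤ deg A := by
  -- open sets agreeing with the countably many Borel sets
  have hE₁ : ∀ i, MeasurableSet (shiftSet F i) := fun i => measurableSet_compRig i.2
    (measurable_join' L ((hF _).comp measurable_fst) ((hF _).comp measurable_snd))
    ((hF _).comp (L.continuous_xr' (L.continuity.2.2.1.comp continuous_fst)
      continuous_snd).measurable)
  have hE₂ : ∀ i, MeasurableSet (transSet F i) := fun i => measurableSet_compRig i.2
    (measurable_join' L ((hF _).comp measurable_fst) ((hF _).comp measurable_snd))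
    ((hF _).comp L.continuity.2.1.measurable)
  choose U₁ hU₁ hEU₁ using fun i => (hE₁ i).residualEq_isOpen
  choose U₂ hU₂ hEU₂ using fun i => (hE₂ i).residualEq_isOpen
  choose O hO hFO using fun q : ℕ × ℕ × Bool =>
    (((measurable_pi_apply q.2.1).comp (hF q.1))
      (measurableSet_singleton q.2.2)).residualEq_isOpen
  let C : Set Cantor := {X | ∀ q : ℕ × ℕ × Bool, F q.1 X q.2.1 = q.2.2 ↔ X ∈ O q}
  have hC : ∀ᶠ X in residual Cantor, X ∈ C :=
    eventually_countable_forall.mpr fun q => (hFO q).mem_iff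
  have hK₁ : ∀ᶠ q in residual (Cantor × Cantor), ∀ i, q ∈ shiftSet F i ↔ q ∈ U₁ i :=
    eventually_countable_forall.mpr fun i => (hEU₁ i).mem_iff
  have hK₂ : ∀ᶠ q in residual (Cantor × Cantor), ∀ i, q ∈ transSet F i ↔ q ∈ U₂ i :=
    eventually_countable_forall.mpr fun i => (hEU₂ i).mem_iff
  have hAX : ∀ᶠ X in residual Cantor, ¬ deg A ≤ deg X := by
    by_contra hcon
    refine hA (elim_nonmeagre L fun h => hcon ?_)
    filter_upwards [h] with X hX hle
    exact hX (hle.trans (L.le_join_right _ _))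
  -- generic parameters
  let G1 : Cantor → Cantor → Prop := fun u z =>
    (∀ i, (ptX A u z, ptR A u z) ∈ shiftSet F i ↔ (ptX A u z, ptR A u z) ∈ U₁ i) ∧
    (∀ i, (ptY u, ptT A u z) ∈ transSet F i ↔ (ptY u, ptT A u z) ∈ U₂ i) ∧
    (∀ S, xr (ptX A u z) (fin S) ∈ C) ∧ ptX A u z ∈ C ∧ ¬ deg A ≤ deg (ptX A u z)
  let G2 : Cantor → Cantor → Cantor → Prop := fun u z z' => ∀ n,
    (∀ i, (itX A u z z' n, ptR A u z) ∈ shiftSet F i ↔ (itX A u z z' n, ptR A u z) ∈ U₁ i) ∧
    (∀ i, (itY A u z z' n, ptT A u z') ∈ transSet F i ↔ (itY A u z z' n, ptT A u z') ∈ U₂ i) ∧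
    itX A u z z' n ∈ C
  have tfst : Tendsto (Prod.fst : Cantor × Cantor → Cantor)
      (residual (Cantor × Cantor)) (residual Cantor) :=
    tendsto_residual_of_isOpenMap continuous_fst isOpenMap_fst
  have hG1 : ∀ᶠ p : Cantor × Cantor in residual (Cantor × Cantor), G1 p.1 p.2 :=
    ((tendsto_XR L).eventually hK₁).and (((tendsto_YT L).eventually hK₂).and
      ((eventually_countable_forall.mpr fun S => (tendsto_ptX_fin L S).eventually hC).and
        (((tfst.comp (tendsto_XR L)).eventually hC).and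
          ((tfst.comp (tendsto_XR L)).eventually hAX))))
  have hG2 : ∀ᶠ p : Cantor × Cantor × Cantor in residual (Cantor × Cantor × Cantor),
      G2 p.1 p.2.1 p.2.2 :=
    eventually_countable_forall.mpr fun n => ((tendsto_itXR L n).eventually hK₁).and
      (((tendsto_itYT L n).eventually hK₂).and
        ((tfst.comp (tendsto_itXR L n)).eventually hC))
  have hu : ∀ᶠ u in residual Cantor, (∀ᶠ z in residual Cantor, G1 u z) ∧
      ∀ᶠ z in residual Cantor, ∀ᶠ z' in residual Cantor, G2 u z z' :=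
    (sect₁ (fun p => G1 p.1 p.2) hG1).and
      ((sect (fun p => G2 p.1 p.2.1 p.2.2) hG2).mono fun u hu => sect₁ _ hu)
  refine elim_nonmeagre L fun hm => not_meagre_of_eventually L hu (hm.mono fun u hu => ?_)
  obtain ⟨hg1, hg2⟩ := hu
  show deg B ≤ deg (join A u)
  obtain ⟨eY, heY⟩ := hcov (ptY u)
  let Good : Set Cantor := {z | G1 u z ∧ ∀ᶠ z' in residual Cantor, G2 u z z'}
  let K : ℕ × ℕ × ℕ × OCode × OCode × ℕ → Set Cantor := fun ⟨eX, eR, eT, p, q, M⟩ =>
    {z | deg (F eX (ptX A u z)) = π (deg (ptX A u z)) ∧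
      deg (F eR (ptR A u z)) = π (deg (ptR A u z)) ∧
      deg (F eT (ptT A u z)) = π (deg (ptT A u z)) ∧
      (∃ G : Finset ℕ, (∀ m ∈ G, m.unpair.1 < M) ∧
        Box (ptX A u z) G ×ˢ Box (ptR A u z) G ⊆ U₁ ((eX, eR, eY), p)) ∧
      ∃ G : Finset ℕ, (∀ m ∈ G, m.unpair.1 < M) ∧
        Box (ptY u) G ×ˢ Box (ptT A u z) G ⊆ U₂ ((eY, eT, eX), q)}
  obtain ⟨⟨eX, eR, eT, p, q, M⟩, hK⟩ : ∃ c, ¬ IsMeagre (K c ∩ Good) := by
    by_contra hcon
    push Not at hcon
    refine not_meagre_of_eventually L (hg1.and hg2) ((isMeagre_iUnion hcon).mono fun z hz => ?_)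
    obtain ⟨eX, hX⟩ := hcov (ptX A u z)
    obtain ⟨eR, hR⟩ := hcov (ptR A u z)
    obtain ⟨eT, hT⟩ := hcov (ptT A u z)
    have hY : deg (ptY u) ≤ deg (join (ptX A u z) (ptR A u z)) := by
      rw [← shiftStep_eq (A := A) u z]
      exact L.deg_xr ((L.deg_shiftS _).trans (L.le_join_left _ _)) (L.le_join_right _ _)
    have hX' : deg (ptX A u z) ≤ deg (join (ptY u) (ptT A u z)) :=
      (congrArg deg (back_eq (A := A) u z)).symm.le.trans
        (L.deg_xr (L.le_join_left _ _) (L.le_join_right _ _))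
    obtain ⟨p, hp⟩ := rep_join_le L hX hR heY hY
    obtain ⟨q, hq⟩ := rep_join_le L heY hT hX hX'
    have hp' : (ptX A u z, ptR A u z) ∈ shiftSet F ((eX, eR, eY), p) := by
      show Comp p _ (F eY (xr (shiftS (ptX A u z)) (ptR A u z)))
      rw [shiftStep_eq]; exact hp
    have hq' : (ptY u, ptT A u z) ∈ transSet F ((eY, eT, eX), q) := by
      show Comp q _ (F eX (xr (ptY u) (ptT A u z)))
      rw [back_eq]; exact hq
    obtain ⟨Ga, -, ha⟩ := L.openBox2 _ (hU₁ _) _ ((hz.1.1 _).mp hp') ∅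
    obtain ⟨Gb, -, hb⟩ := L.openBox2 _ (hU₂ _) _ ((hz.1.2.1 _).mp hq') ∅
    exact Set.mem_iUnion.mpr ⟨(eX, eR, eT, p, q, (Ga ∪ Gb).sup (fun m => m.unpair.1) + 1),
      ⟨hX, hR, hT, ⟨Ga, fun m hm => Nat.lt_succ_of_le
          (Finset.le_sup (f := fun m => m.unpair.1) (Finset.mem_union_left _ hm)), ha⟩,
        ⟨Gb, fun m hm => Nat.lt_succ_of_le
          (Finset.le_sup (f := fun m => m.unpair.1) (Finset.mem_union_right _ hm)), hb⟩⟩, hz⟩
  obtain ⟨τ, Fz, hdense⟩ := dense _ hK
  let M₀ : ℕ := max M (Fz.sup id + 1)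
  have hFz : ∀ r ∈ Fz, r < M₀ := fun r hr =>
    lt_of_lt_of_le (Nat.lt_succ_of_le (Finset.le_sup (f := id) hr)) (le_max_right _ _)
  -- a member of the class in a prescribed cylinder inside the dense one
  have inBox : ∀ (c : Cantor) (N : ℕ), M₀ ≤ N → (∀ r ∈ Fz, c r = τ r) →
      ¬ IsMeagre ((K (eX, eR, eT, p, q, M) ∩ Good) ∩ Box c (Finset.range N)) := by
    intro c N hN hc
    exact hdense _ (L.isOpen_box _ _) ⟨c, mem_Box_self _ _⟩ fun y hy r hr =>
      (hy r (Finset.mem_range.mpr (lt_of_lt_of_le (hFz r hr) hN))).trans (hc r hr)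
  refine elim_nonmeagre L fun hmz => hdense _ (L.isOpen_box τ Fz) ⟨τ, mem_Box_self _ _⟩
    subset_rfl (hmz.mono ?_)
  rintro z ⟨⟨⟨hX, hR, -, ⟨Ga, hGa, hboxA⟩, -⟩, hg, hgz'⟩, hzτ⟩
  obtain ⟨-, -, hXS, hXC, hAnX⟩ := hg
  show deg B ≤ deg (join (join A u) z)
  -- some finite change below the rows of the box is visible
  obtain ⟨S, i, hSM, hSi⟩ : ∃ (S : Finset ℕ) (i : ℕ), (∀ m ∈ S, M₀ ≤ m.unpair.1) ∧
      F eX (xr (ptX A u z) (fin S)) i ≠ F eX (ptX A u z) i := by
    by_contra hcon
    push Not at hcon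
    obtain ⟨z₂, ⟨⟨hX₂, -⟩, hg₂, -⟩, hz₂⟩ := nonempty_of_not_isMeagre
      (inBox (Function.update z M₀ (!z M₀)) (M₀ + 1) (Nat.le_succ _) fun r hr => by
        rw [Function.update_of_ne (hFz r hr).ne, hzτ r hr])
    let D : Cantor := rowsOn (xr z z₂) (patD A)
    have hD : xr (ptX A u z) D = ptX A u z₂ := by
      funext m
      simp only [D, ptX, rowsOn, xr]
      cases z m.unpair.1 <;> cases z₂ m.unpair.1 <;> cases lft u m <;> cases patD A m <;> rfl
    have hsame : F eX (ptX A u z₂) = F eX (ptX A u z) := by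
      funext i
      have hmem := (hg₂.2.2.2.1 (eX, i, F eX (ptX A u z₂) i)).mp rfl
      obtain ⟨G, -, hG⟩ := L.openBox _ (hO _) _ hmem ∅
      have hSrow : ∀ m ∈ G.filter (fun m => D m = true), M₀ ≤ m.unpair.1 := by
        intro m hm
        by_contra hlt
        have e := hz₂ m.unpair.1 (Finset.mem_range.mpr (by omega))
        rw [Function.update_of_ne (by omega)] at e
        simp [D, rowsOn, xr, e] at hm
      rw [← hcon _ i hSrow]
      refine ((hXS _ (eX, i, F eX (ptX A u z₂) i)).mpr (hG fun m hm => ?_)).symm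
      rw [← hD]
      simp only [xr, fin]
      cases hDm : D m <;> simp [hDm, hm]
    have hdeg : deg (ptX A u z₂) = deg (ptX A u z) :=
      π.injective (by rw [← hX₂, hsame, hX])
    refine hAnX ((row_computes L A (xr z z₂) (M := M₀) ?_).trans ?_)
    · have e := hz₂ M₀ (Finset.mem_range.mpr (Nat.lt_succ_self _))
      simp [xr, e]
    · have e : rowsOn (xr z z₂) (patD A) = xr (ptX A u z) (ptX A u z₂) := by
        rw [← hD]; funext m; simp [D, xr]
      rw [e]
      exact L.deg_xr le_rfl hdeg.le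
  obtain ⟨b, hb⟩ : ∃ b, F eX (ptX A u z) i = b := ⟨_, rfl⟩
  have hb' : F eX (xr (ptX A u z) (fin S)) i = !b := by
    revert hSi
    rw [hb]
    cases F eX (xr (ptX A u z) (fin S)) i <;> cases b <;> simp
  obtain ⟨Gf, -, hGf⟩ := L.openBox _ (hO _) _ ((hXC (eX, i, b)).mp hb) ∅
  obtain ⟨Gt, -, hGt⟩ := L.openBox _ (hO _) _ ((hXS S (eX, i, !b)).mp hb') ∅
  let W : Finset ℕ := Gf ∪ Gt ∪ S
  let Rv : Finset ℕ := S.image fun m => m.unpair.1
  have hRv : ∀ r ∈ Rv, M₀ ≤ r := fun r hr => by
    obtain ⟨m, hm, rfl⟩ := Finset.mem_image.mp hr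
    exact hSM m hm
  let N : ℕ := max M₀ (W.sup (fun m => m.unpair.1) + 1)
  let w : ℕ := W.sup (fun m => m.unpair.2) + 1
  refine elim_nonmeagre L fun hmz' => inter_eventually
    (inBox (fun r => z r ^^ decide (r ∈ Rv)) N (le_max_left _ _) fun r hr => ?_) hgz'
    (hmz'.mono ?_)
  · have : r ∉ Rv := fun hc => absurd (hRv r hc) (not_le.mpr (hFz r hr))
    simp [this, hzτ r hr]
  rintro z' ⟨⟨⟨⟨-, -, hT, -, ⟨Gb, hGb, hboxB⟩⟩, -⟩, hz'⟩, hg⟩
  show deg B ≤ deg (join (join (join A u) z) z')
  have hzz : ∀ r < N, z' r = (z r ^^ decide (r ∈ Rv)) := fun r hr =>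
    hz' r (Finset.mem_range.mpr hr)
  have hlow : ∀ m : ℕ, m.unpair.1 < M → z m.unpair.1 = z' m.unpair.1 := fun m hm => by
    have h0 : m.unpair.1 < M₀ := lt_of_lt_of_le hm (le_max_left _ _)
    have : m.unpair.1 ∉ Rv := fun hc => absurd (hRv _ hc) (not_le.mpr h0)
    simp [hzz _ (lt_of_lt_of_le h0 (le_max_left _ _)), this]
  have hbX : ∀ n, (itX A u z z' n, ptR A u z) ∈ shiftSet F ((eX, eR, eY), p) := fun n =>
    ((hg n).1 _).mpr (hboxA ⟨fun m hm => by
      obtain ⟨e1, e2, -⟩ := shiftN_live_zero (A := A) (n := n) (hlow m (hGa m hm))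
      simp [itX, xr, e1, e2], mem_Box_self _ _⟩)
  have hbY : ∀ n, (itY A u z z' n, ptT A u z') ∈ transSet F ((eY, eT, eX), q) := fun n =>
    ((hg n).2.1 _).mpr (hboxB ⟨fun m hm => by
      obtain ⟨e1, -, e3⟩ := shiftN_live_zero (A := A) (n := n + 1) (hlow m (hGb m hm))
      simp [itY_eq, xr, e1, e3], mem_Box_self _ _⟩)
  -- the window shows one bit of `A`
  let g : Cantor := live A z z'
  let l₀ : List ℕ := (W.filter fun m => g m = true).toList
  let l₁ : List ℕ := (W.filter fun m => (g m ^^ fin S m) = true).toList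
  let k : ℕ → ℕ := fun j => blockIdx l₀ l₁ j w
  have hwin : ∀ j, ∀ m ∈ W,
      itX A u z z' (k j * k j) m = (ptX A u z m ^^ (A j && fin S m)) := by
    intro j m hm
    have hrow : m.unpair.1 < N :=
      lt_of_lt_of_le (Nat.lt_succ_of_le (Finset.le_sup (f := fun m => m.unpair.1) hm))
        (le_max_right _ _)
    by_cases hr : m.unpair.1 ∈ Rv
    · have hdiff : (z m.unpair.1 ^^ z' m.unpair.1) = true := by simp [hzz _ hrow, hr]
      have hcol : m.unpair.2 ≤ w :=
        (Finset.le_sup (f := fun m => m.unpair.2) hm).trans (Nat.le_succ _)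
      have hshift : shiftN g (k j * k j) m =
          bif A j then (g m ^^ fin S m) else g m := by
        rw [shiftN_apply]
        simp only [g, live, rowsOn, xr, Nat.unpair_pair, hdiff, Bool.and_true,
          Nat.add_comm m.unpair.2, k]
        rw [patG_block A l₀ l₁ j w _ _ hcol, Nat.pair_unpair]
        cases A j <;> simp [l₀, l₁, hm, g, live, rowsOn, xr, hdiff] <;>
          cases patG A m <;> cases fin S m <;> simp_all
      simp only [itX, xr]
      rw [hshift]
      cases A j <;> cases ptX A u z m <;> cases fin S m <;> simp [g]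
    · have hs : fin S m = false := by
        simp only [fin, decide_eq_false_iff_not]
        exact fun hc => hr (Finset.mem_image_of_mem _ hc)
      obtain ⟨e1, e2, -⟩ := shiftN_live_zero (A := A) (n := k j * k j) (m := m)
        (z := z) (z' := z') (by simp [hzz _ hrow, hr])
      simp [itX, xr, e1, e2, hs]
  have hread : ∀ j, A j = (F eX (itX A u z z' (k j * k j)) i ^^ b) := fun j => by
    have hC' := (hg (k j * k j)).2.2
    cases hAj : A j with
    | false =>
      have : F eX (itX A u z z' (k j * k j)) i = b := (hC' (eX, i, b)).mpr (hGf fun m hm => by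
        rw [hwin j m (Finset.mem_union_left _ (Finset.mem_union_left _ hm)), hAj]; simp)
      simp [this]
    | true =>
      have : F eX (itX A u z z' (k j * k j)) i = !b := (hC' (eX, i, !b)).mpr (hGt fun m hm => by
        rw [hwin j m (Finset.mem_union_left _ (Finset.mem_union_right _ hm)), hAj]; simp [xr])
      simp [this]
  -- one program iterated
  let P : Cantor := join (F eR (ptR A u z)) (F eT (ptT A u z'))
  have cd : Primrec fun n => 2 * n := Primrec.nat_mul.comp (Primrec.const 2) Primrec.id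
  obtain ⟨e₁, he₁⟩ := L.stepCode p (fun n => 2 * n) cd.to_comp
  obtain ⟨e₂, he₂⟩ := L.stepCode q (fun n => 2 * n + 1) (Primrec.succ.comp cd).to_comp
  obtain ⟨pl, hpl⟩ := L.pullback (fun n => 2 * n) cd.to_comp
  obtain ⟨e₃, he₃⟩ := L.subst e₁ e₂
  obtain ⟨e, he⟩ := L.subst e₃ pl
  have hplj : ∀ X Y, Comp pl (join X Y) X := fun X Y => by
    convert hpl (join X Y) using 1
    exact (lft_join X Y).symm
  have hstep : ∀ n,
      Comp e (join (F eX (itX A u z z' n)) P) (F eX (itX A u z z' (n + 1))) := fun n => by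
    have s1 : Comp e₁ (join (F eX (itX A u z z' n)) P)
        (join (F eY (itY A u z z' n)) P) := he₁ _ _ _ (by
      rw [show (fun m => P (2 * m)) = F eR (ptR A u z) from lft_join _ _]
      exact hbX n)
    have s2 : Comp e₂ (join (F eY (itY A u z z' n)) P)
        (join (F eX (itX A u z z' (n + 1))) P) := he₂ _ _ _ (by
      rw [show (fun m => P (2 * m + 1)) = F eT (ptT A u z') from rgt_join _ _, ← itY_step]
      exact hbY n)
    exact he _ _ _ (he₃ _ _ _ s1 s2) (hplj _ _)
  have hk : Computable fun j => k j * k j := by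
    have : Primrec k := Primrec₂.natPair.comp (Primrec.const _)
      (Primrec₂.natPair.comp Primrec.id (Primrec.const w))
    exact (Primrec.nat_mul.comp this this).to_comp
  have hkey := L.iterate e pl (fun j => k j * k j) i b (fun n => F eX (itX A u z z' n))
    (fun j => F eX (itX A u z z' (k j * k j))) P A hk hstep (fun j => hplj _ _) hread
  rw [hB, π.symm_apply_le]
  refine hkey.trans ?_
  simp only [itX_zero, P, L.degJoin _ _ _, hX, hR, hT, π.le_iff_le]
  have hzd : deg z ≤ deg (join (join (join A u) z) z') :=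
    (L.le_join_right _ _).trans (L.le_join_left _ _)
  have hz'd : deg z' ≤ deg (join (join (join A u) z) z') := L.le_join_right _ _
  have hAu : deg (join A u) ≤ deg (join (join (join A u) z) z') :=
    (L.le_join_left _ _).trans (L.le_join_left _ _)
  have hud := (L.le_join_right A u).trans hAu
  have hD : deg (patD A) ≤ deg (join (join (join A u) z) z') := by
    have := (deg_patG A).trans ((L.le_join_left A u).trans hAu)
    exact L.deg_xr this ((L.deg_shiftS _).trans this)
  have hQ := (L.deg_lft u).trans hud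
  have hRr := (L.deg_rgt u).trans hud
  refine ⟨L.deg_xr hQ (deg_rowsOn hzd hD),
    L.deg_xr hRr ((L.deg_shiftS _).trans (deg_rowsOn hzd hD)), ?_⟩
  exact L.deg_xr (L.deg_xr hQ (deg_rowsOn hz'd hD))
    (L.deg_xr ((L.deg_shiftS _).trans hQ) hRr)

/-- Every automorphism is the identity. -/
theorem automorphism_trivial (dense : DenseSomewhereStatement)
    (sect : SectionStatement Cantor (Cantor × Cantor)) (sect₁ : SectionStatement Cantor Cantor)
    (cover : CoverAutStatement) (π : SetDegree ≃o SetDegree) :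
    π = OrderIso.refl SetDegree := by
  have key : ∀ (σ : SetDegree ≃o SetDegree) (A : Cantor), σ.symm (deg A) ≤ deg A := by
    intro σ A
    by_cases hA : deg A ≤ deg (fun _ => false)
    · have hbot : ∀ X : Cantor, deg A ≤ deg X := fun X => by
        refine hA.trans ?_
        simpa using L.mask X (fun _ => false) id (Computable.const false) Computable.id
      obtain ⟨Y, hY⟩ := exists_deg (σ (deg A))
      rw [σ.symm_apply_le, hY.symm]
      exact hbot Y
    · obtain ⟨F, hF, hcov⟩ := cover σ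
      obtain ⟨B, hB⟩ := exists_deg (σ.symm (deg A))
      rw [← hB]
      exact symm_le L dense sect sect₁ hF hcov A hA hB
  refine DFunLike.ext _ _ fun d => ?_
  obtain ⟨A, rfl⟩ := exists_deg d
  refine le_antisymm ?_ (π.symm_apply_le.mp (key π A))
  simpa using key π.symm A

end P327.Rig
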