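import Vale.Agent.P327.Rig.Full
import Vale.Agent.P327.Rig.CategoryBasic
import Vale.Agent.P327.Rig.Category2
import Vale.Agent.P327.Rig.CoverAut

/-!
P327: the rigidity theorem for the Turing degrees.
-/

namespace P327.Rig

open P327

theorem rigidity (π : SetDegree ≃o SetDegree) : π = OrderIso.refl SetDegree :=
  automorphism_trivial layer denseSomewhere section_ section_ coverAut π

end P327.Rig
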