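import Vale.Agent.P327.Rig.Pattern

/-!
P327, rigidity for every automorphism: the points used by the iteration and their genericity.
`u` codes the two free parameters and `z` selects rows of the pattern.
-/

namespace P327.Rig

open P327 Filter Topology

variable (A : Cantor)

/-- The first input. -/
def ptX (u z : Cantor) : Cantor := xr (lft u) (rowsOn z (patD A))

/-- Its partner in the shift step. -/
def ptR (u z : Cantor) : Cantor := xr (rgt u) (shiftS (rowsOn z (patD A)))

/-- The shifted point, which does not depend on `z`. -/
def ptY (u : Cantor) : Cantor := xr (shiftS (lft u)) (rgt u)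

/-- The translation back. -/
def ptT (u z : Cantor) : Cantor := xr (ptX A u z) (ptY u)

/-- The pattern in the rows where `z` and `z'` differ. -/
def live (z z' : Cantor) : Cantor := rowsOn (xr z z') (patG A)

/-- The inputs of the iteration. -/
def itX (u z z' : Cantor) (n : ℕ) : Cantor :=
  xr (xr (ptX A u z) (live A z z')) (shiftN (live A z z') n)

/-- The intermediate points of the iteration. -/
def itY (u z z' : Cantor) (n : ℕ) : Cantor := xr (shiftS (itX A u z z' n)) (ptR A u z)

variable {A}

lemma shiftStep_eq (u z : Cantor) : xr (shiftS (ptX A u z)) (ptR A u z) = ptY u := by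
  funext m
  simp [ptX, ptR, ptY, xr, shiftS, bne_comm', bne_left_comm', bne_cancel]

lemma back_eq (u z : Cantor) : xr (ptY u) (ptT A u z) = ptX A u z := by
  funext m
  simp [ptT, xr, bne_comm', bne_left_comm', bne_cancel]

lemma itX_zero (u z z' : Cantor) : itX A u z z' 0 = ptX A u z := xr_self_right _ _

lemma itY_eq (u z z' : Cantor) (n : ℕ) :
    itY A u z z' n =
      xr (ptY u) (xr (shiftS (live A z z')) (shiftN (live A z z') (n + 1))) := by
  funext m
  simp [itY, itX, shiftN, ptX, ptR, ptY, xr, shiftS, bne_comm', bne_left_comm', bne_cancel]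

lemma itY_step (u z z' : Cantor) (n : ℕ) :
    xr (itY A u z z' n) (ptT A u z') = itX A u z z' (n + 1) := by
  rw [itY_eq]
  funext m
  have e1 : shiftS (live A z z') m =
      (shiftS (patG A) m && (z m.unpair.1 ^^ z' m.unpair.1)) := by
    simp [live, shiftS, rowsOn, xr]
  simp only [xr, itX, ptT, ptX, e1]
  generalize shiftN (live A z z') (n + 1) m = N
  simp only [live, rowsOn, patD, xr]
  cases z m.unpair.1 <;> cases z' m.unpair.1 <;> cases lft u m <;> cases ptY u m <;>
    cases patG A m <;> cases shiftS (patG A) m <;> cases N <;> rfl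

variable (L : Layer)
include L

lemma continuous_ptX : Continuous fun p : Cantor × Cantor => ptX A p.1 p.2 :=
  L.continuous_xr' (continuous_lft.comp continuous_fst)
    ((continuous_rowsOn _).comp continuous_snd)

lemma continuous_ptR : Continuous fun p : Cantor × Cantor => ptR A p.1 p.2 :=
  L.continuous_xr' (continuous_rgt.comp continuous_fst)
    (L.continuity.2.2.1.comp ((continuous_rowsOn _).comp continuous_snd))

lemma continuous_ptY : Continuous fun p : Cantor × Cantor => ptY p.1 :=
  L.continuous_xr' (L.continuity.2.2.1.comp (continuous_lft.comp continuous_fst))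
    (continuous_rgt.comp continuous_fst)

lemma tendsto_XR :
    Tendsto (fun p : Cantor × Cantor => (ptX A p.1 p.2, ptR A p.1 p.2))
      (residual (Cantor × Cantor)) (residual (Cantor × Cantor)) := by
  refine tendsto_residual_of_isOpenMap ((continuous_ptX L).prodMk (continuous_ptR L))
    (IsOpenMap.of_sections fun p => ⟨fun q => (join (xr q.1 (rowsOn p.2 (patD A)))
      (xr q.2 (shiftS (rowsOn p.2 (patD A)))), p.2), ?_, ?_, fun q => ?_⟩)
  · exact ((L.continuous_join' (L.continuous_xr' continuous_fst continuous_const)
      (L.continuous_xr' continuous_snd continuous_const)).prodMk continuous_const).continuousAt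
  · simp [ptX, ptR, xr_self_right, join_lft_rgt]
  · simp [ptX, ptR, xr_self_right]

lemma tendsto_YT :
    Tendsto (fun p : Cantor × Cantor => (ptY p.1, ptT A p.1 p.2))
      (residual (Cantor × Cantor)) (residual (Cantor × Cantor)) := by
  refine tendsto_residual_of_isOpenMap
    ((continuous_ptY L).prodMk (L.continuous_xr' (continuous_ptX L) (continuous_ptY L)))
    (IsOpenMap.of_sections fun p => ⟨fun q =>
      (join (xr (xr q.2 q.1) (rowsOn p.2 (patD A)))
        (xr q.1 (shiftS (xr (xr q.2 q.1) (rowsOn p.2 (patD A))))), p.2), ?_, ?_, fun q => ?_⟩)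
  · have hQ : Continuous fun q : Cantor × Cantor => xr (xr q.2 q.1) (rowsOn p.2 (patD A)) :=
      L.continuous_xr' (L.continuous_xr' continuous_snd continuous_fst) continuous_const
    exact ((L.continuous_join' hQ (L.continuous_xr' continuous_fst
      (L.continuity.2.2.1.comp hQ))).prodMk continuous_const).continuousAt
  · have e : xr (xr (ptT A p.1 p.2) (ptY p.1)) (rowsOn p.2 (patD A)) = lft p.1 := by
      simp only [ptT, ptX, xr_self_right]
    simp only [e]
    rw [show xr (ptY p.1) (shiftS (lft p.1)) = rgt p.1 by
      funext m; simp [ptY, xr, bne_comm', bne_left_comm', bne_cancel], join_lft_rgt]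
  · refine Prod.ext ?_ ?_ <;> funext m <;>
      simp [ptT, ptX, ptY, xr, bne_comm', bne_left_comm', bne_cancel]

lemma continuous_live : Continuous fun p : Cantor × Cantor => live A p.1 p.2 :=
  (continuous_rowsOn _).comp L.continuity.2.1

lemma continuous_shiftN (n : ℕ) : Continuous fun X : Cantor => shiftN X n := by
  induction n with
  | zero => exact continuous_id
  | succ n ih => exact L.continuity.2.2.1.comp ih

lemma continuous_itX (n : ℕ) :
    Continuous fun p : Cantor × Cantor × Cantor => itX A p.1 p.2.1 p.2.2 n :=
  L.continuous_xr'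
    (L.continuous_xr' ((continuous_ptX L).comp (continuous_fst.prodMk
      (continuous_fst.comp continuous_snd))) ((continuous_live L).comp continuous_snd))
    ((continuous_shiftN L n).comp ((continuous_live L).comp continuous_snd))

lemma tendsto_itXR (n : ℕ) :
    Tendsto (fun p : Cantor × Cantor × Cantor => (itX A p.1 p.2.1 p.2.2 n, ptR A p.1 p.2.1))
      (residual (Cantor × Cantor × Cantor)) (residual (Cantor × Cantor)) := by
  have hR : Continuous fun p : Cantor × Cantor × Cantor => ptR A p.1 p.2.1 :=
    (continuous_ptR L).comp (continuous_fst.prodMk (continuous_fst.comp continuous_snd))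
  refine tendsto_residual_of_isOpenMap ((continuous_itX L n).prodMk hR)
    (IsOpenMap.of_sections fun p => ⟨fun q =>
      (join (xr (xr (xr q.1 (shiftN (live A p.2.1 p.2.2) n)) (live A p.2.1 p.2.2))
          (rowsOn p.2.1 (patD A))) (xr q.2 (shiftS (rowsOn p.2.1 (patD A)))), p.2),
      ?_, ?_, fun q => ?_⟩)
  · exact ((L.continuous_join' (L.continuous_xr' (L.continuous_xr'
      (L.continuous_xr' continuous_fst continuous_const) continuous_const) continuous_const)
      (L.continuous_xr' continuous_snd continuous_const)).prodMk continuous_const).continuousAt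
  · simp [itX, ptX, ptR, xr_self_right, join_lft_rgt]
  · refine Prod.ext ?_ ?_ <;> funext m <;>
      simp [itX, ptX, ptR, xr, bne_comm', bne_left_comm', bne_cancel]

lemma tendsto_itYT (n : ℕ) :
    Tendsto (fun p : Cantor × Cantor × Cantor => (itY A p.1 p.2.1 p.2.2 n, ptT A p.1 p.2.2))
      (residual (Cantor × Cantor × Cantor)) (residual (Cantor × Cantor)) := by
  have hR : Continuous fun p : Cantor × Cantor × Cantor => ptR A p.1 p.2.1 :=
    (continuous_ptR L).comp (continuous_fst.prodMk (continuous_fst.comp continuous_snd))
  have h13 : Continuous fun p : Cantor × Cantor × Cantor => (p.1, p.2.2) :=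
    continuous_fst.prodMk (continuous_snd.comp continuous_snd)
  have hT : Continuous fun p : Cantor × Cantor × Cantor => ptT A p.1 p.2.2 :=
    (L.continuous_xr' (continuous_ptX L) (continuous_ptY L)).comp h13
  refine tendsto_residual_of_isOpenMap ((L.continuous_xr'
    (L.continuity.2.2.1.comp (continuous_itX L n)) hR).prodMk hT)
    (IsOpenMap.of_sections fun p => ?_)
  let cy : Cantor := xr (shiftS (live A p.2.1 p.2.2)) (shiftN (live A p.2.1 p.2.2) (n + 1))
  let hq : Cantor × Cantor → Cantor := fun q => xr (xr q.2 (xr q.1 cy)) (rowsOn p.2.2 (patD A))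
  refine ⟨fun q => (join (hq q) (xr (xr q.1 cy) (shiftS (hq q))), p.2), ?_, ?_, fun q => ?_⟩
  · have hY : Continuous fun q : Cantor × Cantor => xr q.1 cy :=
      L.continuous_xr' continuous_fst continuous_const
    have hQ : Continuous hq :=
      L.continuous_xr' (L.continuous_xr' continuous_snd hY) continuous_const
    exact ((L.continuous_join' hQ (L.continuous_xr' hY (L.continuity.2.2.1.comp hQ))).prodMk
      continuous_const).continuousAt
  · have e0 : xr (itY A p.1 p.2.1 p.2.2 n) cy = ptY p.1 := by
      rw [itY_eq]; exact xr_self_right _ _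
    have e : hq (itY A p.1 p.2.1 p.2.2 n, ptT A p.1 p.2.2) = lft p.1 := by
      simp only [hq, e0, ptT, ptX, xr_self_right]
    simp only [e, e0]
    rw [show xr (ptY p.1) (shiftS (lft p.1)) = rgt p.1 by
      funext m; simp [ptY, xr, bne_comm', bne_left_comm', bne_cancel], join_lft_rgt]
  · refine Prod.ext ?_ ?_
    · simp only [itY_eq]
      funext m
      simp [cy, hq, ptY, xr, bne_comm', bne_left_comm', bne_cancel]
    · funext m
      simp [cy, hq, ptT, ptX, ptY, xr, bne_comm', bne_left_comm', bne_cancel]

lemma tendsto_ptX_fin (S : Finset ℕ) :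
    Tendsto (fun p : Cantor × Cantor => xr (ptX A p.1 p.2) (fin S))
      (residual (Cantor × Cantor)) (residual Cantor) :=
  (tendsto_xr_right L (fin S)).comp
    ((tendsto_residual_of_isOpenMap continuous_fst isOpenMap_fst).comp (tendsto_XR L))

omit L in
lemma shiftN_live_zero {z z' : Cantor} {n m : ℕ} (h : z m.unpair.1 = z' m.unpair.1) :
    shiftN (live A z z') n m = false ∧ live A z z' m = false ∧
      shiftS (live A z z') m = false := by
  simp [shiftN_apply, live, rowsOn, xr, shiftS, h]

end P327.Rig
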