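import Vale.Agent.P327.Rig.Algebra
import Vale.Agent.P327.Rig.Interfaces2

/-!
P327, rigidity for every automorphism: the pattern coded from one set, and restriction to rows.
-/

namespace P327.Rig

open P327 Filter

lemma measurableSet_compRig {Z : Type*} [MeasurableSpace Z] (c : OCode) {f g : Z → Cantor}
    (hf : Measurable f) (hg : Measurable g) : MeasurableSet {z | Comp c (f z) (g z)} := by
  simp only [comp_iff]
  exact P327.measurableSet_comp c hf hg

/-- A finite list of cells by its code. -/
def cells (c : ℕ) : List ℕ := (Encodable.decode (α := List ℕ) c).getD []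

/-- The block of a cell: columns `k * k` up to `k * k + 2 * k` form block `k`. -/
def blockOf (n : ℕ) : ℕ := Nat.sqrt n.unpair.2

/-- The cell translated to the start of its block. -/
def cellOf (n : ℕ) : ℕ := Nat.pair n.unpair.1 (n.unpair.2 - blockOf n * blockOf n)

/-- The bit of the set that block `k` displays. -/
def slotOf (k : ℕ) : ℕ := k.unpair.2.unpair.1

/-- The cells shown for the value false. -/
def shown0 (n : ℕ) : Bool := decide (cellOf n ∈ cells (blockOf n).unpair.1.unpair.1)

/-- The cells shown for the value true. -/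
def shown1 (n : ℕ) : Bool := decide (cellOf n ∈ cells (blockOf n).unpair.1.unpair.2)

/-- The pattern of `A`: block `k` shows one of two finite patterns according to one bit of `A`. -/
def patG (A : Cantor) : Cantor := fun n => bif A (slotOf (blockOf n)) then shown1 n else shown0 n

/-- The pattern plus its shift. -/
def patD (A : Cantor) : Cantor := xr (patG A) (shiftS (patG A))

/-- The part of `X` in the rows listed by `z`. -/
def rowsOn (z X : Cantor) : Cantor := fun n => X n && z n.unpair.1

/-- The block coding two patterns, a position of the set and a lower bound on the width. -/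
def blockIdx (l₀ l₁ : List ℕ) (j c : ℕ) : ℕ :=
  Nat.pair (Nat.pair (Encodable.encode l₀) (Encodable.encode l₁)) (Nat.pair j c)

/-- The finite change given by a finite set of cells. -/
def fin (S : Finset ℕ) : Cantor := fun n => decide (n ∈ S)

lemma le_blockIdx (l₀ l₁ : List ℕ) (j c : ℕ) : c ≤ blockIdx l₀ l₁ j c :=
  (Nat.right_le_pair j c).trans (Nat.right_le_pair _ _)

lemma patG_block (A : Cantor) (l₀ l₁ : List ℕ) (j c r off : ℕ) (hoff : off ≤ c) :
    patG A (Nat.pair r (blockIdx l₀ l₁ j c * blockIdx l₀ l₁ j c + off)) =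
      bif A j then decide (Nat.pair r off ∈ l₁) else decide (Nat.pair r off ∈ l₀) := by
  have hk : Nat.sqrt (blockIdx l₀ l₁ j c * blockIdx l₀ l₁ j c + off) = blockIdx l₀ l₁ j c := by
    refine Nat.sqrt_add_eq _ ?_
    have := le_blockIdx l₀ l₁ j c
    omega
  simp only [patG, shown0, shown1, cellOf, blockOf, slotOf, Nat.unpair_pair, hk,
    Nat.add_sub_cancel_left]
  simp [blockIdx, cells]

lemma shiftS_rowsOn (z X : Cantor) : shiftS (rowsOn z X) = rowsOn z (shiftS X) := by
  funext n; simp [shiftS, rowsOn]

lemma continuous_rowsOn (X : Cantor) : Continuous fun z : Cantor => rowsOn z X :=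
  continuous_pi fun n => (continuous_of_discreteTopology (f := fun b : Bool => X n && b)).comp
    (continuous_apply n.unpair.1)

lemma shown_computable :
    Computable shown0 ∧ Computable shown1 ∧ Computable fun n => slotOf (blockOf n) := by
  have hsq : Primrec blockOf :=
    Primrec.nat_sqrt.comp (Primrec.snd.comp Primrec.unpair)
  have hcell : Primrec cellOf :=
    Primrec₂.natPair.comp (Primrec.fst.comp Primrec.unpair)
      (Primrec.nat_sub.comp (Primrec.snd.comp Primrec.unpair) (Primrec.nat_mul.comp hsq hsq))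
  have hcells : Primrec cells := Primrec.option_getD.comp Primrec.decode (Primrec.const [])
  have hmem : Primrec₂ fun (n : ℕ) (l : List ℕ) => decide (n ∈ l) := by
    obtain ⟨_, h⟩ := (PrimrecRel.exists_mem_list (Primrec.eq (α := ℕ)))
    exact (h.comp (Primrec.snd.pair Primrec.fst)).of_eq fun p => by simp
  have hpp : Primrec fun n => (blockOf n).unpair.1.unpair :=
    Primrec.unpair.comp (Primrec.fst.comp (Primrec.unpair.comp hsq))
  exact ⟨(hmem.comp hcell (hcells.comp (Primrec.fst.comp hpp))).to_comp,
    (hmem.comp hcell (hcells.comp (Primrec.snd.comp hpp))).to_comp,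
    (Primrec.fst.comp (Primrec.unpair.comp (Primrec.snd.comp (Primrec.unpair.comp hsq)))).to_comp⟩

lemma deg_patG (A : Cantor) : deg (patG A) ≤ deg A := by
  obtain ⟨h0, h1, hs⟩ := shown_computable
  obtain ⟨e, he⟩ := exists_comp_map₂
    (op := fun n x _ => bif x then shown1 n else shown0 n) hs hs
    (Computable.cond (Computable.fst.comp Computable.snd) (h1.comp Computable.fst)
      (h0.comp Computable.fst)) .query .query
  exact deg_le_iff_comp.mpr ⟨e, he A A A (comp_query A) (comp_query A)⟩

lemma deg_rowsOn {z X : Cantor} {d : SetDegree} (hz : deg z ≤ d) (hX : deg X ≤ d) :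
    deg (rowsOn z X) ≤ d := by
  obtain ⟨Z, rfl⟩ := deg_surjective d
  obtain ⟨c, hc⟩ := deg_le_iff_comp.mp hX
  obtain ⟨c', hc'⟩ := deg_le_iff_comp.mp hz
  obtain ⟨e, he⟩ := exists_comp_map₂ (op := fun _ x y => x && y) Computable.id
    (g := fun n : ℕ => n.unpair.1) (Primrec.fst.comp Primrec.unpair).to_comp
    (Primrec.and.to_comp.comp (Computable.fst.comp Computable.snd)
      (Computable.snd.comp Computable.snd)) c c'
  exact deg_le_iff_comp.mpr ⟨e, he Z X z hc hc'⟩

/-- Every row of the doubled pattern computes the set. -/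
lemma row_computes (L : Layer) (A w : Cantor) {M : ℕ} (hw : w M = true) :
    deg A ≤ deg (rowsOn w (patD A)) := by
  let k : ℕ → ℕ := fun j => blockIdx [] [Nat.pair M 0] j 1
  have hk : Primrec k := Primrec₂.natPair.comp
    (Primrec.const (Nat.pair (Encodable.encode ([] : List ℕ)) (Encodable.encode [Nat.pair M 0])))
    (Primrec₂.natPair.comp Primrec.id (Primrec.const 1))
  have hA : A = fun j => rowsOn w (patD A) (Nat.pair M (k j * k j)) := by
    funext j
    have h0 := patG_block A [] [Nat.pair M 0] j 1 M 0 (Nat.zero_le 1)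
    have h1 := patG_block A [] [Nat.pair M 0] j 1 M 1 le_rfl
    simp only [Nat.add_zero] at h0
    simp [rowsOn, hw, patD, xr, shiftS, k, h0, h1, Nat.pair_eq_pair]
  conv_lhs => rw [hA]
  exact L.deg_pull _ (Primrec₂.natPair.comp (Primrec.const M)
    (Primrec.nat_mul.comp hk hk)).to_comp

lemma elim_nonmeagre (L : Layer) {a B : Cantor}
    (hne : ¬ IsMeagre {P : Cantor | deg B ≤ deg (join a P)}) : deg B ≤ deg a := by
  have hU : {P : Cantor | deg B ≤ deg (join a P)} ⊆ ⋃ e, {P | Comp e (join a P) B} :=
    fun P hP => Set.mem_iUnion.mpr ((L.reduces _ _).mp hP)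
  obtain ⟨e, he⟩ : ∃ e, ¬ IsMeagre {P : Cantor | Comp e (join a P) B} := by
    by_contra hcon
    push Not at hcon
    exact hne ((isMeagre_iUnion hcon).mono hU)
  obtain ⟨u, hu, hEu⟩ := (measurableSet_compRig e
    (measurable_join' L measurable_const measurable_id) measurable_const).residualEq_isOpen
  obtain ⟨P, hP⟩ : u.Nonempty := by
    refine Set.nonempty_iff_ne_empty.mpr fun h0 => he ?_
    filter_upwards [hEu.mem_iff] with X hX hmem
    exact (h0 ▸ hX.mp hmem : X ∈ (∅ : Set Cantor))
  obtain ⟨G, -, hG⟩ := L.openBox u hu P hP ∅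
  refine L.elim e a B P G fun V hV hne hsub => ?_
  obtain ⟨Q, hQ, hQ'⟩ := L.existsMem V (fun x => x ∈ u → Comp e (join a x) B) hV hne
    (hEu.mem_iff.mono fun x hx hxu => hx.mpr hxu)
  exact ⟨Q, hQ, hQ' (hG (hsub hQ))⟩

end P327.Rig
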